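import Vale.Agent.Lib.P113.RMFlow

/-!
The flow data is a primitive recursive function of the machine and the input.
-/

namespace Vale.Agent.Lib.P113

variable {α : Type*} [Primcodable α]

@[fun_prop] theorem pr_toNat {f : α → Bool} (hf : Primrec f) : Primrec (fun x => (f x).toNat) :=
  (Primrec.dom_bool Bool.toNat).comp hf

@[fun_prop] theorem pr_nS {f : α → Machine} (hf : Primrec f) : Primrec (fun x => nS (f x)) := by
  unfold nS; fun_prop
@[fun_prop] theorem pr_nQ {f : α → Machine} (hf : Primrec f) : Primrec (fun x => nQ (f x)) := by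
  unfold nQ; fun_prop
@[fun_prop] theorem pr_delta {f : α → Machine} {g h : α → ℕ} (hf : Primrec f) (hg : Primrec g)
    (hh : Primrec h) : Primrec (fun x => delta (f x) (g x) (h x)) := by
  unfold delta; fun_prop
@[fun_prop] theorem pr_nC {f : α → Machine} (hf : Primrec f) : Primrec (fun x => nC (f x)) := by
  unfold nC; fun_prop
@[fun_prop] theorem pr_gcode {f : α → Machine} {g h : α → ℕ} {d : α → Bool} (hf : Primrec f)
    (hg : Primrec g) (hd : Primrec d) (hh : Primrec h) :
    Primrec (fun x => gcode (f x) (g x) (d x) (h x)) := by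
  unfold gcode; fun_prop
@[fun_prop] theorem pr_nD {f : α → Machine} (hf : Primrec f) : Primrec (fun x => nD (f x)) := by
  unfold nD; fun_prop
@[fun_prop] theorem pr_nB {f : α → Machine} (hf : Primrec f) : Primrec (fun x => nB (f x)) := by
  unfold nB; fun_prop
@[fun_prop] theorem pr_sig {g : α → ℕ} {d : α → Bool} (hg : Primrec g) (hd : Primrec d) :
    Primrec (fun x => sig (g x) (d x)) := by
  unfold sig; fun_prop
@[fun_prop] theorem pr_tau {f : α → Machine} {g h : α → ℕ} {d : α → Bool} (hf : Primrec f)
    (hg : Primrec g) (hd : Primrec d) (hh : Primrec h) :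
    Primrec (fun x => tau (f x) (g x) (d x) (h x)) := by
  unfold tau; fun_prop
@[fun_prop] theorem pr_pwin {f : α → ℕ} {g : α → List ℕ} (hf : Primrec f) (hg : Primrec g) :
    Primrec (fun x => pwin (f x) (g x)) := by
  unfold pwin; fun_prop
@[fun_prop] theorem pr_mkPiece {f : α → ℕ} {g h : α → List ℕ} {s t : α → Q} (hf : Primrec f)
    (hg : Primrec g) (hh : Primrec h) (hs : Primrec s) (ht : Primrec t) :
    Primrec (fun x => mkPiece (f x) (g x) (h x) (s x) (t x)) := by
  unfold mkPiece; fun_prop
@[fun_prop] theorem pr_s1Piece {f : α → ℕ} {g : α → Rule} (hf : Primrec f) (hg : Primrec g) :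
    Primrec (fun x => s1Piece (f x) (g x)) := by
  unfold s1Piece; fun_prop
@[fun_prop] theorem pr_s2Piece {f : α → ℕ} {g : α → Rule} (hf : Primrec f) (hg : Primrec g) :
    Primrec (fun x => s2Piece (f x) (g x)) := by
  unfold s2Piece qone; fun_prop
@[fun_prop] theorem pr_qdB {f : α → Machine} {g : α → Q} {h : α → ℕ} (hf : Primrec f)
    (hg : Primrec g) (hh : Primrec h) : Primrec (fun x => qdB (f x) (g x) (h x)) := by
  unfold qdB; fun_prop
@[fun_prop] theorem pr_readRule {f : α → Machine} {g : α → Idx} (hf : Primrec f)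
    (hg : Primrec g) : Primrec (fun x => readRule (f x) (g x)) := by
  unfold readRule qone; fun_prop
@[fun_prop] theorem pr_midCoef {f : α → Machine} {g : α → Idx} (hf : Primrec f)
    (hg : Primrec g) : Primrec (fun x => midCoef (f x) (g x)) := by
  unfold midCoef qone qzero; fun_prop
@[fun_prop] theorem pr_midRule {f : α → Machine} {g : α → Idx} (hf : Primrec f)
    (hg : Primrec g) : Primrec (fun x => midRule (f x) (g x)) := by
  unfold midRule; fun_prop
@[fun_prop] theorem pr_writeRule {f : α → Machine} {g : α → Idx} (hf : Primrec f)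
    (hg : Primrec g) : Primrec (fun x => writeRule (f x) (g x)) := by
  unfold writeRule qone; fun_prop
@[fun_prop] theorem pr_allIdx {f g : α → ℕ} (hf : Primrec f) (hg : Primrec g) :
    Primrec (fun x => allIdx (f x) (g x)) := by
  unfold allIdx; fun_prop
@[fun_prop] theorem pr_idxM {f : α → Machine} (hf : Primrec f) :
    Primrec (fun x => idxM (f x)) := by
  unfold idxM; fun_prop
@[fun_prop] theorem pr_haltPieces {f : α → Machine} (hf : Primrec f) :
    Primrec (fun x => haltPieces (f x)) := by
  unfold haltPieces qzero; fun_prop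
@[fun_prop] theorem pr_shears {f : α → Machine} (hf : Primrec f) :
    Primrec (fun x => shears (f x)) := by
  unfold shears; fun_prop
@[fun_prop] theorem pr_qsval {f : α → ℕ} {g : α → List ℕ} (hf : Primrec f) (hg : Primrec g) :
    Primrec (fun x => qsval (f x) (g x)) := by
  unfold qsval qzero; fun_prop
@[fun_prop] theorem pr_Rinit {f : α → Machine} {g : α → List ℕ} (hf : Primrec f)
    (hg : Primrec g) : Primrec (fun x => Rinit (f x) (g x)) := by
  unfold Rinit; fun_prop
@[fun_prop] theorem pr_flowData {f : α → Machine} {g : α → List ℕ} (hf : Primrec f)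
    (hg : Primrec g) : Primrec (fun x => flowData (f x) (g x)) := by
  unfold flowData qzero; fun_prop

theorem primrec_flowData : Primrec (fun p : Machine × List ℕ => flowData p.1 p.2) := by fun_prop

end Vale.Agent.Lib.P113
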