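import Vale.Agent.Lib.P113.Geo5
import Vale.Agent.Lib.P113.Comp1
import Vale.Agent.Lib.P113_helper28.Flow12
import Vale.Agent.Lib.P113_helper29.Uniq

namespace Vale.Agent.Lib.P113

open Set
open scoped ContDiff

theorem slab_open : IsOpen slab := by
  have : slab = ⋃ n : ℤ, {x : R3 | (n : ℝ) + 9 / 16 < x 2} ∩ {x : R3 | x 2 < (n : ℝ) + 11 / 16} := by
    ext x
    simp [slab]
  rw [this]
  refine isOpen_iUnion fun n => IsOpen.inter ?_ ?_
  · exact isOpen_lt continuous_const (continuous_apply 2)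
  · exact isOpen_lt (continuous_apply 2) continuous_const

theorem slab_periodic (x : R3) (i : Fin 3) : x + Pi.single i 1 ∈ slab ↔ x ∈ slab := by
  by_cases hi : i = 2
  · subst hi
    have h : (x + (Pi.single (2 : Fin 3) (1 : ℝ) : R3)) 2 = x 2 + 1 := by simp
    constructor
    · rintro ⟨n, h1, h2⟩
      rw [h] at h1 h2
      refine ⟨n - 1, ?_, ?_⟩ <;> push_cast <;> linarith
    · rintro ⟨n, h1, h2⟩
      refine ⟨n + 1, ?_, ?_⟩ <;> rw [h] <;> push_cast <;> linarith
  · have h : (x + (Pi.single i (1 : ℝ) : R3)) 2 = x 2 := by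
      have : (2 : Fin 3) ≠ i := fun h => hi h.symm
      simp [Pi.single_apply, this]
    show (∃ n : ℤ, (n : ℝ) + 9 / 16 < (x + (Pi.single i (1 : ℝ) : R3)) 2 ∧
      (x + (Pi.single i (1 : ℝ) : R3)) 2 < (n : ℝ) + 11 / 16) ↔ _
    rw [h]
    rfl

/-- everything about the flow of (M, w) except the effectivity of the force -/
theorem main_dyn (ν : ℝ) (hν : 0 < ν) (M : Machine) (hM : M.Valid) (w : List ℕ)
    (hw : ∀ s ∈ w, s ≤ M.1) :
    IsSmoothForce (force ν (flowData M w)) ∧
      ∃ (u : ℝ → R3 → R3) (p : ℝ → R3 → ℝ),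
        ContDiff ℝ ∞ (fun z : ℝ × R3 => u z.1 z.2) ∧
        ContDiff ℝ ∞ (fun z : ℝ × R3 => p z.1 z.2) ∧
        (∀ T, 0 < T → IsClassicalSol ν (force ν (flowData M w)) T u p) ∧
        (∀ T, 0 < T → ∀ v q, IsClassicalSol ν (force ν (flowData M w)) T v q →
          ∀ t ∈ Icc (0 : ℝ) T, ∀ x, v t x = u t x ∧ q t x = p t x) ∧
        (∃ X, IsTrajectory u 0 X) ∧
        ∀ X, IsTrajectory u 0 X → ((∃ t, 0 ≤ t ∧ X t ∈ slab) ↔ M.HaltsOn w) := by
  refine ⟨⟨force_contDiff ν _, force_per ν _⟩, vel (flowData M w), fun _ _ => 0,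
    vel_contDiff _, contDiff_const, fun T _ => vel_classical ν _ T, ?_, exists_trajectory _ _, ?_⟩
  · intro T hT v q hv
    exact classical_unique hν hT (vel_classical ν _ T) hv
  · intro X hX
    exact hits_iff M hM w hw X hX

theorem main_periodic (ν : ℝ) (M : Machine) (w : List ℕ) (t : ℝ) (ht : 1 ≤ t) (x : R3) :
    force ν (flowData M w) (t + 10) x = force ν (flowData M w) t x := by
  have := force_time_periodic ν (flowData M w) t ht x
  have h : ((flowData M w).2.length : ℝ) = 10 := by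
    show (((shears M).length : ℕ) : ℝ) = 10
    simp [shears]
  rwa [h] at this

theorem main_indep (ν : ℝ) (M : Machine) (w w' : List ℕ) (t : ℝ) (ht : 1 ≤ t) (x : R3) :
    force ν (flowData M w) t x = force ν (flowData M w') t x :=
  force_indep ν _ _ (shears M) t ht x

end Vale.Agent.Lib.P113
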