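import Mathlib

/-!
Definitions for P113: forced Navier-Stokes flows on the flat torus, classical solutions,
particle trajectories, one-tape Turing machines, effective forces and force compilers.
Functions on the torus (R/Z)^3 are Z^3-periodic functions on R^3.
-/

namespace Vale.Agent.Lib.P113

open Set
open scoped ContDiff

/-- Points of `R^3`, lifts of points of the flat torus (R/Z)^3. -/
abbrev R3 : Type := Fin 3 → ℝ

/-- `Z^3`-periodicity: the function descends to the torus. -/
def Per {β : Type} (g : R3 → β) : Prop :=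
  ∀ (x : R3) (i : Fin 3), g (x + Pi.single i 1) = g x

/-- The rational number (a - b) / (c + 1) presented by a triple (a, b, c) of naturals. -/
noncomputable def qval (r : ℕ × ℕ × ℕ) : ℝ :=
  ((r.1 : ℝ) - (r.2.1 : ℝ)) / ((r.2.2 : ℝ) + 1)

/-- (u, p) is a classical solution on `[0, T]` of the forced incompressible Navier-Stokes system
on the torus with viscosity `ν`, force `f` and zero initial velocity: `u`, its time derivative `ut`,
its first and second spatial derivatives `du j`, `ddu j k`, the pressure `p` and its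
derivatives `dp j` are continuous on `[0, T] × R^3`, periodic, `p` has spatial mean zero, and the
equations hold pointwise. -/
def IsClassicalSol (ν : ℝ) (f : ℝ → R3 → R3) (T : ℝ) (u : ℝ → R3 → R3) (p : ℝ → R3 → ℝ) : Prop :=
  ∃ (ut : ℝ → R3 → R3) (du : Fin 3 → ℝ → R3 → R3) (ddu : Fin 3 → Fin 3 → ℝ → R3 → R3)
    (dp : Fin 3 → ℝ → R3 → ℝ),
    ContinuousOn (fun z : ℝ × R3 => u z.1 z.2) (Icc 0 T ×ˢ univ) ∧
    ContinuousOn (fun z : ℝ × R3 => ut z.1 z.2) (Icc 0 T ×ˢ univ) ∧
    (∀ j, ContinuousOn (fun z : ℝ × R3 => du j z.1 z.2) (Icc 0 T ×ˢ univ)) ∧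
    (∀ j k, ContinuousOn (fun z : ℝ × R3 => ddu j k z.1 z.2) (Icc 0 T ×ˢ univ)) ∧
    ContinuousOn (fun z : ℝ × R3 => p z.1 z.2) (Icc 0 T ×ˢ univ) ∧
    (∀ j, ContinuousOn (fun z : ℝ × R3 => dp j z.1 z.2) (Icc 0 T ×ˢ univ)) ∧
    (∀ x, u 0 x = 0) ∧
    ∀ t ∈ Icc (0 : ℝ) T,
      Per (u t) ∧ Per (p t) ∧ (∫ x in Icc (0 : R3) 1, p t x) = 0 ∧
      ∀ x : R3,
        HasDerivWithinAt (fun s => u s x) (ut t x) (Icc 0 T) t ∧
        (∀ j, HasDerivAt (fun s => u t (Function.update x j s)) (du j t x) (x j)) ∧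
        (∀ j k, HasDerivAt (fun s => du j t (Function.update x k s)) (ddu j k t x) (x k)) ∧
        (∀ j, HasDerivAt (fun s => p t (Function.update x j s)) (dp j t x) (x j)) ∧
        (∀ i, ut t x i + ∑ j, u t x j * du j t x i
            = - dp i t x + ν * ∑ j, ddu j j t x i + f t x i) ∧
        ∑ j, du j t x j = 0

/-- `X` is the trajectory of the particle starting at `a` in the velocity field `u`. -/
def IsTrajectory (u : ℝ → R3 → R3) (a : R3) (X : ℝ → R3) : Prop :=
  X 0 = a ∧ ∀ t, 0 ≤ t → HasDerivWithinAt X (u t (X t)) (Ici 0) t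

/-- A deterministic one-tape Turing machine, as a finite table. `M.1 + 1` is the number of tape
symbols `0, ..., M.1`, the blank being `0`. `M.2` is the transition table: the working states are
the `q < M.2.length`, every other state is halting, the start state is `0`, and
`M.2[q][a] = (q', a', d)` says: in state `q` reading `a`, write `a'`, move right if `d` and left
otherwise, and enter state `q'`. -/
abbrev Machine : Type := ℕ × List (List (ℕ × ℕ × Bool))

/-- The table is total on working states and symbols, and writes symbols of the alphabet. -/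
def Machine.Valid (M : Machine) : Prop :=
  ∀ row ∈ M.2, row.length = M.1 + 1 ∧ ∀ e ∈ row, e.2.1 ≤ M.1

/-- A configuration: state, two-sided tape, head position. -/
structure Cfg where
  state : ℕ
  tape : ℤ → ℕ
  head : ℤ

/-- One step of the machine. -/
def Machine.step (M : Machine) (c : Cfg) : Cfg :=
  let e := (M.2.getD c.state []).getD (c.tape c.head) (0, 0, false)
  ⟨e.1, Function.update c.tape c.head e.2.1, if e.2.2 then c.head + 1 else c.head - 1⟩

/-- The input `w` on an otherwise blank tape, head on its first cell, start state `0`. -/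
def initCfg (w : List ℕ) : Cfg :=
  ⟨0, fun k => if 0 ≤ k then w.getD k.toNat 0 else 0, 0⟩

/-- `M` reaches a halting state after finitely many steps (possibly none) on input `w`. -/
def Machine.HaltsOn (M : Machine) (w : List ℕ) : Prop :=
  ∃ n : ℕ, M.2.length ≤ ((M.step)^[n] (initCfg w)).state

/-- Time derivative of a scalar field. -/
noncomputable def dT (F : ℝ → R3 → ℝ) : ℝ → R3 → ℝ :=
  fun t x => deriv (fun s => F s x) t

/-- Derivative of a scalar field in the `i`-th space direction. -/
noncomputable def dX (i : Fin 3) (F : ℝ → R3 → ℝ) : ℝ → R3 → ℝ :=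
  fun t x => deriv (fun s => F t (Function.update x i s)) (x i)

/-- The mixed derivative of order `a.1` in time and `a.2.1`, `a.2.2.1`, `a.2.2.2` in space. -/
noncomputable def mixedDeriv (a : ℕ × ℕ × ℕ × ℕ) (F : ℝ → R3 → ℝ) : ℝ → R3 → ℝ :=
  dT^[a.1] ((dX 0)^[a.2.1] ((dX 1)^[a.2.2.1] ((dX 2)^[a.2.2.2] F)))

/-- A smooth force on the torus (we even ask smoothness for all real times). -/
def IsSmoothForce (f : ℝ → R3 → R3) : Prop :=
  ContDiff ℝ ∞ (fun z : ℝ × R3 => f z.1 z.2) ∧ ∀ t, Per (f t)

/-- The program `c` witnesses that `f` is effective: on a multi-index `a`, a component `i`,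
a rational time `t`, a rational point `x` and a rational accuracy (e.1 + 1) / (e.2 + 1) > 0,
it halts and returns a rational within that accuracy of the mixed derivative. -/
def ComputesForce (c : Nat.Partrec.Code) (f : ℝ → R3 → R3) : Prop :=
  ∀ (a : ℕ × ℕ × ℕ × ℕ) (i : Fin 3) (t : ℕ × ℕ × ℕ)
    (x : (ℕ × ℕ × ℕ) × (ℕ × ℕ × ℕ) × (ℕ × ℕ × ℕ)) (e : ℕ × ℕ),
    ∃ r : ℕ × ℕ × ℕ,
      c.eval (Encodable.encode (a, i, t, x, e)) = Part.some (Encodable.encode r) ∧
      |mixedDeriv a (fun s y => f s y i) (qval t) ![qval x.1, qval x.2.1, qval x.2.2] - qval r|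
        ≤ ((e.1 : ℝ) + 1) / ((e.2 : ℝ) + 1)

/-- A computable real number. -/
def IsComputableReal (ν : ℝ) : Prop :=
  ∃ g : ℕ → ℕ × ℕ × ℕ, Computable g ∧ ∀ n : ℕ, |ν - qval (g n)| ≤ 1 / ((n : ℝ) + 1)

end Vale.Agent.Lib.P113
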