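import Vale.Agent.Lib.P113_helper7.Basic1D

/-!
Stacks of digits as real numbers, and the cutoffs of cells given by initial digit strings.
-/

namespace Vale.Agent.Lib.P113

/-- value of a stack of digits in base `B` -/
noncomputable def sval (B : ℕ) : List ℕ → ℝ
  | [] => 0
  | d :: l => ((d : ℝ) + sval B l) / B

/-- (N, i) for the cell of the numbers whose digits start with the given initial digits -/
def pwin (B : ℕ) (p : List ℕ) : ℕ × ℕ := p.foldr (fun d a => (a.1 * B, d * a.1 + a.2)) (1, 0)

/-- the (zero padded) stack `l` starts with the given initial digits -/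
def Mt : List ℕ → List ℕ → Prop
  | [], _ => True
  | p :: ps, l => l.headD 0 = p ∧ Mt ps l.tail

instance : ∀ (p l : List ℕ), Decidable (Mt p l)
  | [], _ => isTrue trivial
  | p :: ps, l => by
      have := instDecidableMt ps l.tail
      unfold Mt
      infer_instance

@[simp] theorem Mt_nil (l : List ℕ) : Mt [] l = True := rfl
@[simp] theorem Mt_cons_cons (p a : ℕ) (ps l : List ℕ) :
    Mt (p :: ps) (a :: l) = (a = p ∧ Mt ps l) := rfl
theorem Mt_cons (p : ℕ) (ps l : List ℕ) :
    Mt (p :: ps) l = (l.headD 0 = p ∧ Mt ps l.tail) := rfl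

theorem sval_eq (B : ℕ) (l : List ℕ) : sval B l = ((l.headD 0 : ℕ) + sval B l.tail) / B := by
  cases l <;> simp [sval]

@[simp] theorem sval_nil (B : ℕ) : sval B [] = 0 := rfl
theorem sval_cons (B d : ℕ) (l : List ℕ) : sval B (d :: l) = ((d : ℝ) + sval B l) / B := rfl

@[simp] theorem pwin_nil (B : ℕ) : pwin B [] = (1, 0) := rfl
theorem pwin_cons (B d : ℕ) (p : List ℕ) :
    pwin B (d :: p) = ((pwin B p).1 * B, d * (pwin B p).1 + (pwin B p).2) := rfl

variable {B D : ℕ}

theorem sval_nonneg (l : List ℕ) : 0 ≤ sval B l := by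
  induction l with
  | nil => simp
  | cons d l ih => rw [sval_cons]; positivity

theorem sval_lt (hD : 0 < D) (hB : B = 4 * D) (l : List ℕ) (hl : ∀ x ∈ l, x < D) :
    sval B l < 1 / 4 := by
  induction l with
  | nil => simp
  | cons d l ih =>
    have h1 := ih (fun x hx => hl x (by simp [hx]))
    have h2 : d + 1 ≤ D := hl d (by simp)
    have h2' : (d : ℝ) + 1 ≤ D := by exact_mod_cast h2
    have hDp : (0 : ℝ) < D := by exact_mod_cast hD
    have hBr : (B : ℝ) = 4 * D := by rw [hB]; push_cast; ring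
    rw [sval_cons, div_lt_iff₀ (by rw [hBr]; positivity), hBr]
    linarith

theorem tail_dig {l : List ℕ} (hl : ∀ x ∈ l, x < D) : ∀ x ∈ l.tail, x < D :=
  fun x hx => hl x (List.mem_of_mem_tail hx)

theorem headD_dig (hD : 0 < D) {l : List ℕ} (hl : ∀ x ∈ l, x < D) : l.headD 0 < D := by
  cases l with
  | nil => simpa using hD
  | cons a l => simpa using hl a (by simp)

theorem pwin_pos (hB : 0 < B) (p : List ℕ) : 0 < (pwin B p).1 := by
  induction p with
  | nil => simp
  | cons d p ih => rw [pwin_cons]; positivity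

theorem pwin_lt (p : List ℕ) (hp : ∀ x ∈ p, x < B) : (pwin B p).2 < (pwin B p).1 := by
  induction p with
  | nil => simp
  | cons d p ih =>
    have h1 := ih (fun x hx => hp x (by simp [hx]))
    have h2 : d + 1 ≤ B := hp d (by simp)
    rw [pwin_cons]
    calc d * (pwin B p).1 + (pwin B p).2 < d * (pwin B p).1 + (pwin B p).1 := by omega
      _ = (pwin B p).1 * (d + 1) := by ring
      _ ≤ (pwin B p).1 * B := Nat.mul_le_mul_left _ h2

/-- position of an encoded number relative to a cell -/
theorem cell_pos (hD : 0 < D) (hB : B = 4 * D) (p : List ℕ) (hp : ∀ x ∈ p, x < B) :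
    ∀ (l : List ℕ), (∀ x ∈ l, x < D) →
      (Mt p l → 0 ≤ ((pwin B p).1 : ℝ) * sval B l - (pwin B p).2 ∧
          ((pwin B p).1 : ℝ) * sval B l - (pwin B p).2 < 1 / 4) ∧
      (¬ Mt p l → ((pwin B p).1 : ℝ) * sval B l - (pwin B p).2 ≤ -(3 / 4) ∨
          1 ≤ ((pwin B p).1 : ℝ) * sval B l - (pwin B p).2) := by
  have hBp : 0 < B := by omega
  have hBr : (0 : ℝ) < B := by exact_mod_cast hBp
  induction p with
  | nil =>
    intro l hl
    simp only [pwin_nil, Mt_nil, not_true_eq_false, false_imp_iff, and_true, true_imp_iff]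
    have := sval_lt hD hB l hl
    have := sval_nonneg (B := B) l
    constructor <;> push_cast <;> linarith
  | cons d p ih =>
    intro l hl
    have hp' : ∀ x ∈ p, x < B := fun x hx => hp x (by simp [hx])
    obtain ⟨ih1, ih2⟩ := ih hp' l.tail (tail_dig hl)
    have hN := pwin_pos hBp p
    have hi := pwin_lt p hp'
    set N := (pwin B p).1 with hNdef
    set i := (pwin B p).2 with hidef
    have hNr : (1 : ℝ) ≤ N := by exact_mod_cast hN
    have hir : (i : ℝ) + 1 ≤ N := by exact_mod_cast hi
    have hs0 := sval_nonneg (B := B) l.tail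
    have hs1 := sval_lt hD hB l.tail (tail_dig hl)
    have key : ((pwin B (d :: p)).1 : ℝ) * sval B l - (pwin B (d :: p)).2
        = (((l.headD 0 : ℕ) : ℝ) - d) * N + ((N : ℝ) * sval B l.tail - i) := by
      rw [pwin_cons, sval_eq B l]
      push_cast
      field_simp
      ring
    rw [key, Mt_cons]
    constructor
    · rintro ⟨h1, h2⟩
      rw [h1]
      have := ih1 h2
      constructor <;> linarith [this.1, this.2]
    · intro h
      rcases lt_trichotomy (l.headD 0) d with hlt | heq | hgt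
      · left
        have : ((l.headD 0 : ℕ) : ℝ) + 1 ≤ d := by exact_mod_cast hlt
        have h3 : (((l.headD 0 : ℕ) : ℝ) - d) * N ≤ -1 * N := by
          apply mul_le_mul_of_nonneg_right _ (by linarith)
          linarith
        have h4 : (0 : ℝ) ≤ i := by positivity
        nlinarith
      · have h2 : ¬ Mt p l.tail := fun h' => h ⟨heq, h'⟩
        rw [heq]
        rcases ih2 h2 with h3 | h3
        · left; linarith
        · right; linarith
      · right
        have : (d : ℝ) + 1 ≤ ((l.headD 0 : ℕ) : ℝ) := by exact_mod_cast hgt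
        have h3 : 1 * (N : ℝ) ≤ (((l.headD 0 : ℕ) : ℝ) - d) * N := by
          apply mul_le_mul_of_nonneg_right _ (by linarith)
          linarith
        nlinarith

theorem xi_sval (hD : 0 < D) (hB : B = 4 * D) (l : List ℕ) (hl : ∀ x ∈ l, x < D) :
    xi (sval B l) = sval B l :=
  xi_of_mem (by linarith [sval_nonneg (B := B) l]) (by linarith [sval_lt hD hB l hl])

theorem bump0_sval (hD : 0 < D) (hB : B = 4 * D) (p : List ℕ) (hp : ∀ x ∈ p, x < B)
    (l : List ℕ) (hl : ∀ x ∈ l, x < D) :
    bump0 (pwin B p).1 (pwin B p).2 (sval B l) = if Mt p l then 1 else 0 := by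
  obtain ⟨h1, h2⟩ := cell_pos hD hB p hp l hl
  unfold bump0
  rw [xi_sval hD hB l hl]
  by_cases hm : Mt p l
  · rw [if_pos hm]
    obtain ⟨h3, h4⟩ := h1 hm
    have hg : 4 * (pwin B p).2 < (pwin B p).1 := by
      have hs := sval_lt hD hB l hl
      have hN : (0 : ℝ) < (pwin B p).1 := by exact_mod_cast pwin_pos (by omega) p
      have : (4 : ℝ) * (pwin B p).2 < (pwin B p).1 := by nlinarith
      exact_mod_cast this
    rw [if_pos hg]
    exact bt_eq_one h3 h4.le
  · rw [if_neg hm]
    split_ifs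
    · apply bt_eq_zero
      rcases h2 hm with h | h
      · left; linarith
      · right; linarith
    · rfl

theorem bump1_sval (hD : 0 < D) (hB : B = 4 * D) (p : List ℕ) (hp : ∀ x ∈ p, x < B)
    (l : List ℕ) (hl : ∀ x ∈ l, x < D) :
    bump1 (pwin B p).1 (pwin B p).2 (sval B l) = if Mt p l then sval B l else 0 := by
  have h := bump0_sval hD hB p hp l hl
  unfold bump0 at h
  unfold bump1
  rw [xi_sval hD hB l hl] at h ⊢
  split_ifs at h ⊢ <;> simp_all

/-- a piece given by two initial digit strings -/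
def mkPiece (B : ℕ) (p1 p2 : List ℕ) (s g : Q) : Piece :=
  ((pwin B p1).1, (pwin B p1).2, (pwin B p2).1, (pwin B p2).2, s, g)

theorem pieceFn_sval (hD : 0 < D) (hB : B = 4 * D) (p1 p2 : List ℕ) (hp1 : ∀ x ∈ p1, x < B)
    (hp2 : ∀ x ∈ p2, x < B) (s g : Q) (l1 l2 : List ℕ) (hl1 : ∀ x ∈ l1, x < D)
    (hl2 : ∀ x ∈ l2, x < D) :
    pieceFn (mkPiece B p1 p2 s g) (sval B l1) (sval B l2)
      = if Mt p1 l1 ∧ Mt p2 l2 then qval s * sval B l1 + qval g else 0 := by
  simp only [pieceFn, mkPiece]
  rw [bump0_sval hD hB p1 hp1 l1 hl1, bump1_sval hD hB p1 hp1 l1 hl1,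
    bump0_sval hD hB p2 hp2 l2 hl2]
  by_cases h1 : Mt p1 l1 <;> by_cases h2 : Mt p2 l2 <;> simp [h1, h2]

end Vale.Agent.Lib.P113
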