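import Vale.Agent.Lib.P113.QArith

/-!
The explicit velocity fields: time-switched shear flows given by finite data.
-/

namespace Vale.Agent.Lib.P113

open Set

/-- the smooth step: `0` on (-∞,0], `1` on `[1,∞)` -/
noncomputable abbrev sg : ℝ → ℝ := Real.smoothTransition

/-- plateau bump: `1` on `[0,1/4]`, `0` outside (-1/8,3/8) -/
noncomputable def bt (v : ℝ) : ℝ := sg (8 * v + 1) - sg (8 * v - 2)

/-- time profile of one phase: `0` on (-∞,1/4], `1` on `[3/4,∞)` -/
noncomputable def sgt (s : ℝ) : ℝ := sg (2 * s - 1 / 2)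

/-- derivative of `sgt` -/
noncomputable def th (s : ℝ) : ℝ := deriv sgt s

/-- derivative of `th` -/
noncomputable def th' (s : ℝ) : ℝ := deriv th s

/-- representative of `y` modulo `1` in `[-1/4, 3/4)` -/
noncomputable def xi (y : ℝ) : ℝ := Int.fract (y + 1 / 4) - 1 / 4

/-- periodic cutoff of the cell `[i/N, (i+1/4)/N]` (guarded so that it is always smooth) -/
noncomputable def bump0 (N i : ℕ) (y : ℝ) : ℝ :=
  if 4 * i < N then bt (N * xi y - i) else 0

/-- periodic cutoff times the coordinate -/
noncomputable def bump1 (N i : ℕ) (y : ℝ) : ℝ :=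
  if 4 * i < N then xi y * bt (N * xi y - i) else 0

/-- A piece (N₁, i₁, N₂, i₂, s, γ): the function (s y + γ) cut off to the cell (N₁,i₁) in `y`
and to the cell (N₂,i₂) in `z`. -/
abbrev Piece : Type := ℕ × ℕ × ℕ × ℕ × Q × Q

noncomputable def pieceFn (P : Piece) (y z : ℝ) : ℝ :=
  (qval P.2.2.2.2.1 * bump1 P.1 P.2.1 y + qval P.2.2.2.2.2 * bump0 P.1 P.2.1 y)
    * bump0 P.2.2.1 P.2.2.2.1 z

noncomputable def shearFn (L : List Piece) (y z : ℝ) : ℝ :=
  (L.map (fun P => pieceFn P y z)).sum

/-- the six orderings (m, k, l) of the coordinates: the shear moves `x m` by a function of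
(x k, x l) -/
def pm (c : ℕ) : Fin 3 := if c = 0 then 2 else if c = 1 then 1 else if c = 2 then 2 else
  if c = 3 then 0 else if c = 4 then 1 else 0
def pk (c : ℕ) : Fin 3 := if c = 0 then 1 else if c = 1 then 2 else if c = 2 then 0 else
  if c = 3 then 2 else if c = 4 then 0 else 1
def pl (c : ℕ) : Fin 3 := if c = 0 then 0 else if c = 1 then 0 else if c = 2 then 1 else
  if c = 3 then 1 else if c = 4 then 2 else 2

/-- A shear: an ordering code and a list of pieces. -/
abbrev Shear : Type := ℕ × List Piece

/-- the vector field of a shear -/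
noncomputable def shearField (S : Shear) (x : R3) : R3 :=
  Pi.single (pm S.1) (shearFn S.2 (x (pk S.1)) (x (pl S.1)))

/-- the Laplacian of the scalar profile of a shear -/
noncomputable def shearLap (L : List Piece) (y z : ℝ) : ℝ :=
  iteratedDeriv 2 (fun s => shearFn L s z) y + iteratedDeriv 2 (fun s => shearFn L y s) z

noncomputable def shearFieldLap (S : Shear) (x : R3) : R3 :=
  Pi.single (pm S.1) (shearLap S.2 (x (pk S.1)) (x (pl S.1)))

/-- Flow data: the initial translation vector and the periodic list of shears. -/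
abbrev FlowData : Type := (Q × Q × Q) × List Shear

/-- the field active during the time interval `[n, n+1]` -/
noncomputable def phase (D : FlowData) (n : ℤ) (x : R3) : R3 :=
  if n < 0 then 0
  else if n = 0 then ![qval D.1.1, qval D.1.2.1, qval D.1.2.2]
  else shearField (D.2.getD ((n.toNat - 1) % D.2.length) (0, [])) x

noncomputable def phaseLap (D : FlowData) (n : ℤ) (x : R3) : R3 :=
  if n ≤ 0 then 0
  else shearFieldLap (D.2.getD ((n.toNat - 1) % D.2.length) (0, [])) x

/-- the velocity field -/
noncomputable def vel (D : FlowData) (t : ℝ) (x : R3) : R3 :=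
  th (Int.fract t) • phase D ⌊t⌋ x

/-- the force `u_t - ν Δ u` (the nonlinear term of a shear vanishes, the pressure is `0`) -/
noncomputable def force (ν : ℝ) (D : FlowData) (t : ℝ) (x : R3) : R3 :=
  th' (Int.fract t) • phase D ⌊t⌋ x - (ν * th (Int.fract t)) • phaseLap D ⌊t⌋ x

/-- positions of the tracked particle at integer times -/
noncomputable def pos (D : FlowData) (a : R3) : ℕ → R3
  | 0 => a
  | n + 1 => pos D a n + phase D n (pos D a n)

end Vale.Agent.Lib.P113
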