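import Vale.Agent.Lib.P113.RMFlow

/-!
Generic evaluation of the shear profiles of rule lists, and arithmetic of the digit codes.
-/

namespace Vale.Agent.Lib.P113

theorem sum_map_range (n : ℕ) (g : ℕ → ℝ) :
    ((List.range n).map g).sum = ∑ i ∈ Finset.range n, g i := by
  induction n with
  | zero => simp
  | succ n ih => rw [List.range_succ, List.map_append, List.sum_append, ih, Finset.sum_range_succ]; simp

theorem sum_map_flatMap {ι κ : Type*} (l : List ι) (F : ι → List κ) (f : κ → ℝ) :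
    ((l.flatMap F).map f).sum = (l.map fun a => ((F a).map f).sum).sum := by
  induction l with
  | nil => simp
  | cons a l ih => simp [List.flatMap_cons, List.map_append, List.sum_append, ih]

theorem sum_allIdx (n C : ℕ) (f : Idx → ℝ) (t0 : Idx) (h0 : t0.1 < n) (h0' : t0.2.2 < C)
    (h : ∀ t : Idx, t.1 < n → t.2.2 < C → t ≠ t0 → f t = 0) :
    ((allIdx n C).map f).sum = f t0 := by
  obtain ⟨q0, d0, c0⟩ := t0
  simp only at h0 h0'
  unfold allIdx
  rw [sum_map_flatMap, sum_map_range]
  have hq : ∀ q ∈ Finset.range n, q ≠ q0 →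
      (([false, true].flatMap fun d => (List.range C).map fun c => ((q, d, c) : Idx)).map f).sum = 0 := by
    intro q hq hne
    rw [sum_map_flatMap]
    simp only [List.map_cons, List.map_nil, List.sum_cons, List.sum_nil, List.map_map, add_zero]
    rw [sum_map_range, sum_map_range]
    rw [Finset.sum_eq_zero, Finset.sum_eq_zero, add_zero]
    · intro c hc
      exact h _ (Finset.mem_range.1 hq) (Finset.mem_range.1 hc) (by simp [hne])
    · intro c hc
      exact h _ (Finset.mem_range.1 hq) (Finset.mem_range.1 hc) (by simp [hne])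
  rw [Finset.sum_eq_single q0 hq (fun hn => absurd (Finset.mem_range.2 h0) hn)]
  rw [sum_map_flatMap]
  simp only [List.map_cons, List.map_nil, List.sum_cons, List.sum_nil, List.map_map, add_zero]
  rw [sum_map_range, sum_map_range]
  cases d0 with
  | false =>
    rw [Finset.sum_eq_single c0, Finset.sum_eq_zero, add_zero]
    · rfl
    · intro c hc
      exact h _ h0 (Finset.mem_range.1 hc) (by simp)
    · intro c hc hne
      exact h _ h0 (Finset.mem_range.1 hc) (by simp [hne])
    · intro hn; exact absurd (Finset.mem_range.2 h0') hn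
  | true =>
    rw [Finset.sum_eq_zero, Finset.sum_eq_single c0, zero_add]
    · rfl
    · intro c hc hne
      exact h _ h0 (Finset.mem_range.1 hc) (by simp [hne])
    · intro hn; exact absurd (Finset.mem_range.2 h0') hn
    · intro c hc
      exact h _ h0 (Finset.mem_range.1 hc) (by simp)

theorem nD_pos (M : Machine) : 0 < nD M := by unfold nD; omega

theorem shearFn_rules (M : Machine) (p1 p2 : Idx → List ℕ) (s g : Idx → Q) (l1 l2 : List ℕ)
    (hl1 : ∀ x ∈ l1, x < nD M) (hl2 : ∀ x ∈ l2, x < nD M)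
    (hp1 : ∀ t : Idx, t.1 < nQ M → t.2.2 < nC M → ∀ x ∈ p1 t, x < nB M)
    (hp2 : ∀ t : Idx, t.1 < nQ M → t.2.2 < nC M → ∀ x ∈ p2 t, x < nB M)
    (t0 : Idx) (h0 : t0.1 < nQ M) (h0' : t0.2.2 < nC M)
    (hm : ∀ t : Idx, t.1 < nQ M → t.2.2 < nC M → ((Mt (p1 t) l1 ∧ Mt (p2 t) l2) ↔ t = t0)) :
    shearFn ((idxM M).map fun t => mkPiece (nB M) (p1 t) (p2 t) (s t) (g t))
      (sval (nB M) l1) (sval (nB M) l2) = qval (s t0) * sval (nB M) l1 + qval (g t0) := by
  unfold shearFn idxM
  rw [List.map_map]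
  rw [sum_allIdx (nQ M) (nC M) _ t0 h0 h0']
  · simp only [Function.comp]
    rw [pieceFn_sval (B := nB M) (nD_pos M) rfl _ _ (hp1 t0 h0 h0') (hp2 t0 h0 h0') _ _ _ _ hl1 hl2,
      if_pos ((hm t0 h0 h0').2 rfl)]
  · intro t ht ht' hne
    simp only [Function.comp]
    rw [pieceFn_sval (B := nB M) (nD_pos M) rfl _ _ (hp1 t ht ht') (hp2 t ht ht') _ _ _ _ hl1 hl2,
      if_neg (fun hh => hne ((hm t ht ht').1 hh))]

/-! ### arithmetic of codes -/

theorem code_inj {C a b a' b' : ℕ} (hb : b < C) (hb' : b' < C) (h : a * C + b = a' * C + b') :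
    a = a' ∧ b = b' := by
  have hC : 0 < C := by omega
  have h1 : (a * C + b) / C = a := by
    rw [Nat.add_comm, Nat.add_mul_div_right _ _ hC, Nat.div_eq_of_lt hb]; simp
  have h2 : (a' * C + b') / C = a' := by
    rw [Nat.add_comm, Nat.add_mul_div_right _ _ hC, Nat.div_eq_of_lt hb']; simp
  have h3 : a = a' := by rw [← h1, h, h2]
  subst h3
  exact ⟨rfl, by omega⟩

theorem sig_inj {q q' : ℕ} {d d' : Bool} : sig q d = sig q' d' ↔ q = q' ∧ d = d' := by
  unfold sig
  cases d <;> cases d' <;> simp <;> omega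

theorem tau_inj (M : Machine) {q q' c c' : ℕ} {d d' : Bool} (hc : c < nC M) (hc' : c' < nC M) :
    tau M q d c = tau M q' d' c' ↔ q = q' ∧ d = d' ∧ c = c' := by
  constructor
  · intro h
    unfold tau at h
    have h' : (2 * q + d.toNat) * nC M + c = (2 * q' + d'.toNat) * nC M + c' := by omega
    obtain ⟨h1, h2⟩ := code_inj hc hc' h'
    have := (sig_inj (q := q) (q' := q') (d := d) (d' := d')).1 h1
    exact ⟨this.1, this.2, h2⟩
  · rintro ⟨rfl, rfl, rfl⟩; rfl

theorem gcode_inj (M : Machine) {q q' a a' : ℕ} {d d' : Bool} (ha : a < nS M) (ha' : a' < nS M) :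
    gcode M q d a = gcode M q' d' a' ↔ q = q' ∧ d = d' ∧ a = a' := by
  constructor
  · intro h
    unfold gcode at h
    have h' : (2 * q + d.toNat) * nS M + a = (2 * q' + d'.toNat) * nS M + a' := by omega
    obtain ⟨h1, h2⟩ := code_inj ha ha' h'
    have := (sig_inj (q := q) (q' := q') (d := d) (d' := d')).1 h1
    exact ⟨this.1, this.2, h2⟩
  · rintro ⟨rfl, rfl, rfl⟩; rfl

theorem toNat_le_one (d : Bool) : d.toNat ≤ 1 := by cases d <;> simp

theorem sig_lt (M : Machine) {q : ℕ} (hq : q ≤ nQ M) (d : Bool) : sig q d < nD M := by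
  unfold sig nD
  have := toNat_le_one d
  have : 0 ≤ 2 * nQ M * nC M := Nat.zero_le _
  omega

theorem tau_lt (M : Machine) {q c : ℕ} (hq : q < nQ M) (hc : c < nC M) (d : Bool) :
    tau M q d c < nD M := by
  unfold tau nD
  have h1 := toNat_le_one d
  have h2 : (2 * q + d.toNat + 1) * nC M ≤ (2 * nQ M) * nC M := Nat.mul_le_mul_right _ (by omega)
  have h3 : (2 * q + d.toNat + 1) * nC M = (2 * q + d.toNat) * nC M + nC M := by ring
  omega

theorem gcode_lt_nC (M : Machine) {q a : ℕ} (hq : q < nQ M) (ha : a < nS M) (d : Bool) :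
    gcode M q d a < nC M := by
  unfold gcode nC
  have h1 := toNat_le_one d
  have h2 : (2 * q + d.toNat + 1) * nS M ≤ (2 * nQ M) * nS M := Nat.mul_le_mul_right _ (by omega)
  have h3 : (2 * q + d.toNat + 1) * nS M = (2 * q + d.toNat) * nS M + nS M := by ring
  omega

theorem nS_le_gcode (M : Machine) (q a : ℕ) (d : Bool) : nS M ≤ gcode M q d a := by
  unfold gcode
  omega

theorem nS_le_nC (M : Machine) : nS M ≤ nC M := by unfold nC; omega

theorem nC_le_nD' (M : Machine) : nC M ≤ nD M := by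
  unfold nD
  omega

theorem nC_le_nD (M : Machine) {q : ℕ} (_hq : q < nQ M) : nC M ≤ nD M := nC_le_nD' M

theorem nD_lt_nB (M : Machine) : nD M ≤ nB M := by unfold nB; omega

theorem delta_sym_lt (M : Machine) (hM : M.Valid) {q a : ℕ} (hq : q < nQ M) (ha : a < nS M) :
    (delta M q a).2.1 < nS M := by
  unfold delta nS
  unfold nQ at hq
  unfold nS at ha
  have h1 : M.2.getD q [] = M.2[q] := by simp [List.getD_eq_getElem?_getD, hq]
  have hrow := hM (M.2[q]) (List.getElem_mem hq)
  rw [h1]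
  have ha' : a < (M.2[q]).length := by rw [hrow.1]; exact ha
  have h2 : (M.2[q]).getD a (0, 0, false) = (M.2[q])[a] := by
    simp [List.getD_eq_getElem?_getD, ha']
  rw [h2]
  have := hrow.2 _ (List.getElem_mem ha')
  omega

end Vale.Agent.Lib.P113
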