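import Vale.Agent.Lib.P113.Geo1

namespace Vale.Agent.Lib.P113

variable (M : Machine)

theorem nB_pos : (0 : ℝ) < (nB M : ℝ) := by
  have := nD_pos M
  have : 0 < nB M := by unfold nB; omega
  exact_mod_cast this

theorem dig_of_cell {q : ℕ} (hq : q < nQ M) {l : List ℕ} (hl : ∀ x ∈ l, x < nC M) :
    ∀ x ∈ l, x < nD M := fun x hx => lt_of_lt_of_le (hl x hx) (nC_le_nD M hq)

theorem dig_cons {a : ℕ} {l : List ℕ} {D : ℕ} (ha : a < D) (hl : ∀ x ∈ l, x < D) :
    ∀ x ∈ a :: l, x < D := by
  intro x hx
  rcases List.mem_cons.1 hx with rfl | h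
  · exact ha
  · exact hl x h

theorem headD_cell {l : List ℕ} (hl : ∀ x ∈ l, x < nC M) : l.headD 0 < nC M := by
  apply headD_dig _ hl
  have : 0 < nS M := by unfold nS; omega
  exact lt_of_lt_of_le this (nS_le_nC M)

theorem shearFn_s1 (R : Idx → Rule) (l1 l2 : List ℕ)
    (hl1 : ∀ x ∈ l1, x < nD M) (hl2 : ∀ x ∈ l2, x < nD M)
    (hp : ∀ t : Idx, t.1 < nQ M → t.2.2 < nC M →
      (∀ x ∈ (R t).1, x < nB M) ∧ (∀ x ∈ (R t).2.1, x < nB M))
    (t0 : Idx) (h0 : t0.1 < nQ M) (h0' : t0.2.2 < nC M)
    (hm : ∀ t : Idx, t.1 < nQ M → t.2.2 < nC M →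
      ((Mt (R t).1 l1 ∧ Mt (R t).2.1 l2) ↔ t = t0)) :
    shearFn ((idxM M).map fun t => s1Piece (nB M) (R t)) (sval (nB M) l1) (sval (nB M) l2)
      = qval (R t0).2.2.2.2.1 * sval (nB M) l1 + qval (R t0).2.2.2.2.2 := by
  simp only [s1Piece]
  exact shearFn_rules M _ _ _ _ l1 l2 hl1 hl2 (fun t h h' => (hp t h h').1)
    (fun t h h' => (hp t h h').2) t0 h0 h0' hm

theorem shearFn_s2 (R : Idx → Rule) (l1 l2 : List ℕ)
    (hl1 : ∀ x ∈ l1, x < nD M) (hl2 : ∀ x ∈ l2, x < nD M)
    (hp : ∀ t : Idx, t.1 < nQ M → t.2.2 < nC M →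
      (∀ x ∈ (R t).2.2.1, x < nB M) ∧ (∀ x ∈ (R t).2.2.2.1, x < nB M))
    (t0 : Idx) (h0 : t0.1 < nQ M) (h0' : t0.2.2 < nC M)
    (hm : ∀ t : Idx, t.1 < nQ M → t.2.2 < nC M →
      ((Mt (R t).2.2.1 l1 ∧ Mt (R t).2.2.2.1 l2) ↔ t = t0))
    (x : ℝ) (hs : qval (R t0).2.2.2.2.1 ≠ 0)
    (hx : sval (nB M) l1 = qval (R t0).2.2.2.2.1 * x + qval (R t0).2.2.2.2.2) :
    shearFn ((idxM M).map fun t => s2Piece (nB M) (R t)) (sval (nB M) l1) (sval (nB M) l2)
      = sval (nB M) l1 - x := by
  simp only [s2Piece]
  rw [shearFn_rules M _ _ _ _ l1 l2 hl1 hl2 (fun t h h' => (hp t h h').1)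
    (fun t h h' => (hp t h h').2) t0 h0 h0' hm]
  have h1 : qval qone = 1 := by simp [qone, qval]
  simp only [qval_qsub, qval_qinv, qval_qdiv, h1]
  rw [hx]
  field_simp
  ring

section
variable {M}
variable {lam rho : List ℕ} {q : ℕ} {d : Bool}

theorem read_aff (d : Bool) (q : ℕ) (lam rho : List ℕ) :
    sval (nB M) (tau M q d (if d then rho.headD 0 else lam.headD 0)
        :: (if d then rho.tail else rho))
      = qval (readRule M (q, d, if d then rho.headD 0 else lam.headD 0)).2.2.2.2.1
          * sval (nB M) (sig q d :: rho)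
        + qval (readRule M (q, d, if d then rho.headD 0 else lam.headD 0)).2.2.2.2.2 := by
  have hB := nB_pos M
  cases d with
  | true =>
    simp only [readRule, if_true, qval_qnat, qval_qdiv, qval_qsub, qval_qadd, qval_qmul]
    rw [sval_cons, sval_cons, sval_eq (nB M) rho]
    field_simp
    ring
  | false =>
    simp only [readRule, Bool.false_eq_true, if_false, qval_qnat, qval_qdiv, qval_qsub, qone]
    rw [sval_cons, sval_cons]
    simp only [qval]
    field_simp
    ring

theorem read_S1 (hq : q < nQ M) (hlam : ∀ x ∈ lam, x < nC M) (hrho : ∀ x ∈ rho, x < nC M) :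
    shearFn ((idxM M).map fun t => s1Piece (nB M) (readRule M t))
      (sval (nB M) (sig q d :: rho)) (sval (nB M) lam)
    = sval (nB M) (tau M q d (if d then rho.headD 0 else lam.headD 0)
        :: (if d then rho.tail else rho)) := by
  have htop : (if d then rho.headD 0 else lam.headD 0) < nC M := by
    split_ifs
    · exact headD_cell M hrho
    · exact headD_cell M hlam
  rw [shearFn_s1 M (readRule M) _ _ (dig_cons (sig_lt M hq.le d) (dig_of_cell M hq hrho))
    (dig_of_cell M hq hlam) ?_ (q, d, if d then rho.headD 0 else lam.headD 0) hq htop ?_]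
  · exact (read_aff d q lam rho).symm
  · rintro ⟨q', d', c'⟩ hq' hc'
    simp only at hq' hc'
    have h1 := sig_lt M hq'.le d'
    have h2 := nC_le_nD M hq'
    have h3 := nD_lt_nB M
    cases d' <;> simp [readRule] <;> omega
  · rintro ⟨q', d', c'⟩ hq' hc'
    cases d' <;> cases d <;> simp [readRule, Mt_cons, sig_inj] <;> tauto

theorem read_S2 (hq : q < nQ M) (hlam : ∀ x ∈ lam, x < nC M) (hrho : ∀ x ∈ rho, x < nC M) :
    shearFn ((idxM M).map fun t => s2Piece (nB M) (readRule M t))
      (sval (nB M) (tau M q d (if d then rho.headD 0 else lam.headD 0)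
        :: (if d then rho.tail else rho))) (sval (nB M) lam)
    = sval (nB M) (tau M q d (if d then rho.headD 0 else lam.headD 0)
        :: (if d then rho.tail else rho)) - sval (nB M) (sig q d :: rho) := by
  have hB := nB_pos M
  have htop : (if d then rho.headD 0 else lam.headD 0) < nC M := by
    split_ifs
    · exact headD_cell M hrho
    · exact headD_cell M hlam
  have hr1 : ∀ x ∈ (if d then rho.tail else rho), x < nC M := by
    split_ifs
    · exact tail_dig hrho
    · exact hrho
  apply shearFn_s2 M (readRule M) _ _ (dig_cons (tau_lt M hq htop d) (dig_of_cell M hq hr1))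
    (dig_of_cell M hq hlam) ?_ (q, d, if d then rho.headD 0 else lam.headD 0) hq htop ?_ _ ?_
    (read_aff d q lam rho)
  · rintro ⟨q', d', c'⟩ hq' hc'
    simp only at hq' hc'
    have h1 := tau_lt M hq' hc' d'
    have h2 := nC_le_nD M hq'
    have h3 := nD_lt_nB M
    cases d' <;> simp [readRule] <;> omega
  · rintro ⟨q', d', c'⟩ hq' hc'
    simp only at hq' hc'
    cases d' <;> cases d <;>
      simp only [readRule, Mt_cons, Mt_nil, if_true, Bool.false_eq_true, if_false,
        and_true, Prod.mk.injEq, List.headD_cons, List.tail_cons] at htop ⊢ <;>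
      rw [tau_inj M htop hc'] <;> simp <;> tauto
  · cases d
    · simp [readRule, qone, qval]
    · simp [readRule, hB.ne']

@[simp] theorem qval_qone : qval qone = 1 := by simp [qone, qval]
@[simp] theorem qval_qzero : qval qzero = 0 := by simp [qzero, qval]
@[simp] theorem qval_qdB (a : Q) (k : ℕ) : qval (qdB M a k) = qval a / (nB M : ℝ) ^ k := by
  simp [qdB]

theorem mid_aff (d : Bool) (q : ℕ) (lam rho : List ℕ) :
    sval (nB M) (Rstep M (lam, q, d, rho)).1
      = qval (midCoef M (q, d, if d then rho.headD 0 else lam.headD 0)).1 * sval (nB M) lam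
        + qval (midCoef M (q, d, if d then rho.headD 0 else lam.headD 0)).2 := by
  have hB := nB_pos M
  cases d with
  | true =>
    simp only [Rstep, midCoef, if_true]
    split_ifs <;>
      simp only [sval_cons, qval_qdB, qval_qone, qval_qzero, qval_qadd, qval_qnat, qval_qsub,
        qval_qneg] <;> field_simp <;> ring
  | false =>
    simp only [Rstep, midCoef, Bool.false_eq_true, if_false]
    rw [sval_eq (nB M) lam]
    split_ifs <;>
      simp only [sval_cons, qval_qdB, qval_qone, qval_qzero, qval_qadd, qval_qnat, qval_qsub,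
        qval_qneg] <;> field_simp <;> ring

theorem midCoef_ne (t : Idx) : qval (midCoef M t).1 ≠ 0 := by
  have hB := nB_pos M
  unfold midCoef
  split_ifs <;> simp [hB.ne']

theorem mid_S1 (hq : q < nQ M) (hlam : ∀ x ∈ lam, x < nC M) (hrho : ∀ x ∈ rho, x < nC M) :
    shearFn ((idxM M).map fun t => s1Piece (nB M) (midRule M t)) (sval (nB M) lam)
      (sval (nB M) (tau M q d (if d then rho.headD 0 else lam.headD 0)
        :: (if d then rho.tail else rho)))
    = sval (nB M) (Rstep M (lam, q, d, rho)).1 := by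
  have htop : (if d then rho.headD 0 else lam.headD 0) < nC M := by
    split_ifs
    · exact headD_cell M hrho
    · exact headD_cell M hlam
  have hr1 : ∀ x ∈ (if d then rho.tail else rho), x < nC M := by
    split_ifs
    · exact tail_dig hrho
    · exact hrho
  rw [shearFn_s1 M (midRule M) _ _ (dig_of_cell M hq hlam)
    (dig_cons (tau_lt M hq htop d) (dig_of_cell M hq hr1))
    ?_ (q, d, if d then rho.headD 0 else lam.headD 0) hq htop ?_]
  · exact (mid_aff d q lam rho).symm
  · rintro ⟨q', d', c'⟩ hq' hc'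
    simp only at hq' hc'
    have h1 := tau_lt M hq' hc' d'
    have h3 := nD_lt_nB M
    simp [midRule]
    omega
  · rintro ⟨q', d', c'⟩ hq' hc'
    simp only at hq' hc'
    simp only [midRule, Mt_cons, Mt_nil, and_true, true_and, Prod.mk.injEq, List.headD_cons]
    rw [tau_inj M htop hc']
    tauto

theorem mid_S2 (hq : q < nQ M) (hlam : ∀ x ∈ lam, x < nC M) (hrho : ∀ x ∈ rho, x < nC M)
    (hlam' : ∀ x ∈ (Rstep M (lam, q, d, rho)).1, x < nC M) :
    shearFn ((idxM M).map fun t => s2Piece (nB M) (midRule M t))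
      (sval (nB M) (Rstep M (lam, q, d, rho)).1)
      (sval (nB M) (tau M q d (if d then rho.headD 0 else lam.headD 0)
        :: (if d then rho.tail else rho)))
    = sval (nB M) (Rstep M (lam, q, d, rho)).1 - sval (nB M) lam := by
  have htop : (if d then rho.headD 0 else lam.headD 0) < nC M := by
    split_ifs
    · exact headD_cell M hrho
    · exact headD_cell M hlam
  have hr1 : ∀ x ∈ (if d then rho.tail else rho), x < nC M := by
    split_ifs
    · exact tail_dig hrho
    · exact hrho
  apply shearFn_s2 M (midRule M) _ _ (dig_of_cell M hq hlam')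
    (dig_cons (tau_lt M hq htop d) (dig_of_cell M hq hr1))
    ?_ (q, d, if d then rho.headD 0 else lam.headD 0) hq htop ?_ _ (midCoef_ne _)
    (mid_aff d q lam rho)
  · rintro ⟨q', d', c'⟩ hq' hc'
    simp only at hq' hc'
    have h1 := tau_lt M hq' hc' d'
    have h3 := nD_lt_nB M
    simp [midRule]
    omega
  · rintro ⟨q', d', c'⟩ hq' hc'
    simp only at hq' hc'
    simp only [midRule, Mt_cons, Mt_nil, and_true, true_and, Prod.mk.injEq, List.headD_cons]
    rw [tau_inj M htop hc']
    tauto

theorem write_aff (d : Bool) (q : ℕ) (lam rho : List ℕ) :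
    sval (nB M) (sig (Rstep M (lam, q, d, rho)).2.1 (Rstep M (lam, q, d, rho)).2.2.1
        :: (Rstep M (lam, q, d, rho)).2.2.2)
      = qval (writeRule M (q, d, if d then rho.headD 0 else lam.headD 0)).2.2.2.2.1
          * sval (nB M) (tau M q d (if d then rho.headD 0 else lam.headD 0)
              :: (if d then rho.tail else rho))
        + qval (writeRule M (q, d, if d then rho.headD 0 else lam.headD 0)).2.2.2.2.2 := by
  have hB := nB_pos M
  cases d with
  | true =>
    simp only [Rstep, writeRule, if_true]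
    split_ifs <;>
      simp only [sval_cons, qval_qdB, qval_qone, qval_qzero, qval_qadd, qval_qnat, qval_qsub,
        qval_qneg] <;> field_simp <;> ring
  | false =>
    simp only [Rstep, writeRule, Bool.false_eq_true, if_false]
    split_ifs <;>
      simp only [sval_cons, qval_qdB, qval_qone, qval_qzero, qval_qadd, qval_qnat, qval_qsub,
        qval_qneg] <;> field_simp <;> ring

theorem writeRule_ne (t : Idx) : qval (writeRule M t).2.2.2.2.1 ≠ 0 := by
  have hB := nB_pos M
  unfold writeRule
  split_ifs <;> simp [hB.ne']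

theorem writeRule_1 (t : Idx) : (writeRule M t).1 = [tau M t.1 t.2.1 t.2.2] := by
  unfold writeRule
  split_ifs <;> rfl

theorem writeRule_2 (t : Idx) : (writeRule M t).2.1 = [] := by
  unfold writeRule
  split_ifs <;> rfl

theorem write_S1 (hq : q < nQ M) (hlam : ∀ x ∈ lam, x < nC M) (hrho : ∀ x ∈ rho, x < nC M)
    (hlam' : ∀ x ∈ (Rstep M (lam, q, d, rho)).1, x < nC M) :
    shearFn ((idxM M).map fun t => s1Piece (nB M) (writeRule M t))
      (sval (nB M) (tau M q d (if d then rho.headD 0 else lam.headD 0)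
        :: (if d then rho.tail else rho)))
      (sval (nB M) (Rstep M (lam, q, d, rho)).1)
    = sval (nB M) (sig (Rstep M (lam, q, d, rho)).2.1 (Rstep M (lam, q, d, rho)).2.2.1
        :: (Rstep M (lam, q, d, rho)).2.2.2) := by
  have htop : (if d then rho.headD 0 else lam.headD 0) < nC M := by
    split_ifs
    · exact headD_cell M hrho
    · exact headD_cell M hlam
  have hr1 : ∀ x ∈ (if d then rho.tail else rho), x < nC M := by
    split_ifs
    · exact tail_dig hrho
    · exact hrho
  rw [shearFn_s1 M (writeRule M) _ _ (dig_cons (tau_lt M hq htop d) (dig_of_cell M hq hr1))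
    (dig_of_cell M hq hlam')
    ?_ (q, d, if d then rho.headD 0 else lam.headD 0) hq htop ?_]
  · exact (write_aff d q lam rho).symm
  · rintro ⟨q', d', c'⟩ hq' hc'
    simp only at hq' hc'
    have h1 := tau_lt M hq' hc' d'
    have h3 := nD_lt_nB M
    rw [writeRule_1, writeRule_2]
    simp
    omega
  · rintro ⟨q', d', c'⟩ hq' hc'
    simp only at hq' hc'
    rw [writeRule_1, writeRule_2]
    simp only [Mt_cons, Mt_nil, and_true, Prod.mk.injEq, List.headD_cons]
    rw [tau_inj M htop hc']
    tauto

end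

end Vale.Agent.Lib.P113
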