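import Vale.Agent.Lib.P113.Geo2

namespace Vale.Agent.Lib.P113

variable {M : Machine} {lam rho : List ℕ} {q : ℕ} {d : Bool}

theorem write_match (hM : M.Valid) (hq : q < nQ M) (top : ℕ) (htop : top < nC M)
    (lam1 rho1 : List ℕ) (t : Idx) (ht : t.1 < nQ M) (ht' : t.2.2 < nC M) :
    (Mt (writeRule M t).2.2.1
        (if top < nS M then
          (if (delta M q top).2.2 then sig (min (delta M q top).1 (nQ M)) true :: rho1
           else sig (min (delta M q top).1 (nQ M)) false :: (delta M q top).2.1
              :: gcode M q d top :: rho1)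
         else (if d then sig q true :: rho1 else sig q false :: top :: rho1)) ∧
      Mt (writeRule M t).2.2.2.1
        (if top < nS M then
          (if (delta M q top).2.2 then (delta M q top).2.1 :: gcode M q d top :: lam1 else lam1)
         else (if d then top :: lam1 else lam1))) ↔ t = (q, d, top) := by
  obtain ⟨q1, d1, c1⟩ := t
  simp only at ht ht'
  have hA : top < nS M → (delta M q top).2.1 < nS M := fun h => delta_sym_lt M hM hq h
  have hB : c1 < nS M → (delta M q1 c1).2.1 < nS M := fun h => delta_sym_lt M hM ht h
  have hG := nS_le_gcode M q top d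
  have hG1 := nS_le_gcode M q1 c1 d1
  unfold writeRule
  simp only []
  split_ifs with h1 h2 h3 h4 h5 h6 h7 h8 h9 <;>
    simp only [Mt_cons, Mt_nil, List.headD_cons, List.tail_cons, and_true, sig_inj,
      Prod.mk.injEq] 
  all_goals
    constructor
    · intro h
      first
        | (exfalso; omega)
        | (exfalso; simp at h)
        | (have hg := (gcode_inj M (by assumption) (by assumption)).1 h.2.2
           exact ⟨hg.1.symm, hg.2.1.symm, hg.2.2.symm⟩)
        | (cases d <;> cases d1 <;> simp_all)
    · rintro ⟨rfl, rfl, rfl⟩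
      first
        | (exfalso; omega)
        | simp_all

theorem Rstep_2 (d : Bool) (q : ℕ) (lam rho : List ℕ) :
    sig (Rstep M (lam, q, d, rho)).2.1 (Rstep M (lam, q, d, rho)).2.2.1
        :: (Rstep M (lam, q, d, rho)).2.2.2
      = (if (if d then rho.headD 0 else lam.headD 0) < nS M then
          (if (delta M q (if d then rho.headD 0 else lam.headD 0)).2.2 then
            sig (min (delta M q (if d then rho.headD 0 else lam.headD 0)).1 (nQ M)) true
              :: (if d then rho.tail else rho)
           else sig (min (delta M q (if d then rho.headD 0 else lam.headD 0)).1 (nQ M)) false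
              :: (delta M q (if d then rho.headD 0 else lam.headD 0)).2.1
              :: gcode M q d (if d then rho.headD 0 else lam.headD 0)
              :: (if d then rho.tail else rho))
         else (if d then sig q true :: (if d then rho.tail else rho)
            else sig q false :: (if d then rho.headD 0 else lam.headD 0)
              :: (if d then rho.tail else rho))) := by
  simp only [Rstep]
  split_ifs <;> rfl

theorem Rstep_1 (d : Bool) (q : ℕ) (lam rho : List ℕ) :
    (Rstep M (lam, q, d, rho)).1
      = (if (if d then rho.headD 0 else lam.headD 0) < nS M then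
          (if (delta M q (if d then rho.headD 0 else lam.headD 0)).2.2 then
            (delta M q (if d then rho.headD 0 else lam.headD 0)).2.1
              :: gcode M q d (if d then rho.headD 0 else lam.headD 0)
              :: (if d then lam else lam.tail)
           else (if d then lam else lam.tail))
         else (if d then (if d then rho.headD 0 else lam.headD 0) :: (if d then lam else lam.tail)
            else (if d then lam else lam.tail))) := by
  simp only [Rstep]
  split_ifs <;> rfl

theorem write_S2 (hM : M.Valid) (hq : q < nQ M) (hlam : ∀ x ∈ lam, x < nC M)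
    (hrho : ∀ x ∈ rho, x < nC M) (hinv : RInv M (Rstep M (lam, q, d, rho))) :
    shearFn ((idxM M).map fun t => s2Piece (nB M) (writeRule M t))
      (sval (nB M) (sig (Rstep M (lam, q, d, rho)).2.1 (Rstep M (lam, q, d, rho)).2.2.1
        :: (Rstep M (lam, q, d, rho)).2.2.2))
      (sval (nB M) (Rstep M (lam, q, d, rho)).1)
    = sval (nB M) (sig (Rstep M (lam, q, d, rho)).2.1 (Rstep M (lam, q, d, rho)).2.2.1
        :: (Rstep M (lam, q, d, rho)).2.2.2)
      - sval (nB M) (tau M q d (if d then rho.headD 0 else lam.headD 0)
        :: (if d then rho.tail else rho)) := by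
  have htop : (if d then rho.headD 0 else lam.headD 0) < nC M := by
    split_ifs
    · exact headD_cell M hrho
    · exact headD_cell M hlam
  apply shearFn_s2 M (writeRule M) _ _
    (dig_cons (sig_lt M hinv.2.1 _) (dig_of_cell M hq hinv.2.2))
    (dig_of_cell M hq hinv.1)
    ?_ (q, d, if d then rho.headD 0 else lam.headD 0) hq htop ?_ _ (writeRule_ne _)
    (write_aff d q lam rho)
  · rintro ⟨q', d', c'⟩ hq' hc'
    simp only at hq' hc'
    have h3 := nD_lt_nB M
    have h4 := nC_le_nD M hq'
    have h5 := nS_le_nC M
    have h6 : c' < nS M → (delta M q' c').2.1 < nS M := fun h => delta_sym_lt M hM hq' h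
    have h7 : c' < nS M → gcode M q' d' c' < nC M := fun h => gcode_lt_nC M hq' h d'
    have h8 := sig_lt M (Nat.min_le_right (delta M q' c').1 (nQ M)) true
    have h9 := sig_lt M (Nat.min_le_right (delta M q' c').1 (nQ M)) false
    have h10 := sig_lt M hq'.le true
    have h11 := sig_lt M hq'.le false
    unfold writeRule
    simp only []
    split_ifs with g1 g2 g3 <;> simp <;> omega
  · intro t ht ht'
    rw [Rstep_2, Rstep_1]
    exact write_match hM hq _ htop _ _ t ht ht'

theorem clear_eval (l1 l2 : List ℕ) (hl1 : ∀ x ∈ l1, x < nD M) (hl2 : ∀ x ∈ l2, x < nD M) :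
    shearFn clearPieces (sval (nB M) l1) (sval (nB M) l2) = - sval (nB M) l1 := by
  have h := pieceFn_sval (B := nB M) (nD_pos M) rfl [] [] (by simp) (by simp) (qneg qone) qzero
    l1 l2 hl1 hl2
  simp only [mkPiece, pwin_nil, Mt_nil, and_self, if_true, qval_qneg, qval_qone, qval_qzero] at h
  simp only [shearFn, clearPieces, List.map_cons, List.map_nil, List.sum_cons, List.sum_nil, h]
  ring

theorem halt_eval (q : ℕ) (hq : q ≤ nQ M) (d : Bool) (rho l2 : List ℕ)
    (hrho : ∀ x ∈ rho, x < nD M) (hl2 : ∀ x ∈ l2, x < nD M) :
    shearFn (haltPieces M) (sval (nB M) (sig q d :: rho)) (sval (nB M) l2)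
      = if q = nQ M then 5 / 8 else 0 := by
  have h3 := nD_lt_nB M
  have hs : ∀ d', ∀ x ∈ [sig (nQ M) d'], x < nB M := by
    intro d' x hx
    have := sig_lt M (le_refl (nQ M)) d'
    simp at hx
    omega
  have h58 : qval ((5, 0, 7) : Q) = 5 / 8 := by simp [qval]; norm_num
  simp only [shearFn, haltPieces, List.map_cons, List.map_nil, List.sum_cons, List.sum_nil]
  rw [pieceFn_sval (B := nB M) (nD_pos M) rfl _ _ (hs false) (by simp) _ _ _ _
      (dig_cons (sig_lt M hq d) hrho) hl2,
    pieceFn_sval (B := nB M) (nD_pos M) rfl _ _ (hs true) (by simp) _ _ _ _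
      (dig_cons (sig_lt M hq d) hrho) hl2]
  simp only [Mt_cons, Mt_nil, List.headD_cons, and_true, sig_inj, qval_qzero, h58, zero_mul,
    zero_add, add_zero]
  by_cases hqq : q = nQ M <;> cases d <;> simp [hqq]

end Vale.Agent.Lib.P113
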