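import Vale.Agent.Lib.P113.Geo3
import Vale.Agent.Lib.P113_helper25.Sim

namespace Vale.Agent.Lib.P113

theorem apply0 (L : List Piece) (a b c : ℝ) :
    (![a, b, c] : R3) + shearField (0, L) ![a, b, c] = ![a, b, c + shearFn L b a] := by
  funext i
  fin_cases i <;> simp [shearField, pm, pk, pl]

theorem apply1 (L : List Piece) (a b c : ℝ) :
    (![a, b, c] : R3) + shearField (1, L) ![a, b, c] = ![a, b + shearFn L c a, c] := by
  funext i
  fin_cases i <;> simp [shearField, pm, pk, pl]

theorem apply2 (L : List Piece) (a b c : ℝ) :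
    (![a, b, c] : R3) + shearField (2, L) ![a, b, c] = ![a, b, c + shearFn L a b] := by
  funext i
  fin_cases i <;> simp [shearField, pm, pk, pl]

theorem apply3 (L : List Piece) (a b c : ℝ) :
    (![a, b, c] : R3) + shearField (3, L) ![a, b, c] = ![a + shearFn L c b, b, c] := by
  funext i
  fin_cases i <;> simp [shearField, pm, pk, pl]

theorem phase_flow (M : Machine) (w : List ℕ) (k j : ℕ) (hj : j < 10) (x : R3) :
    phase (flowData M w) ((1 + 10 * k + j : ℕ) : ℤ) x
      = shearField ((shears M).getD j (0, [])) x := by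
  unfold phase
  have h1 : ¬ (((1 + 10 * k + j : ℕ) : ℤ) < 0) := by omega
  have h2 : ¬ (((1 + 10 * k + j : ℕ) : ℤ) = 0) := by omega
  rw [if_neg h1, if_neg h2]
  have h3 : (flowData M w).2 = shears M := rfl
  have h4 : (shears M).length = 10 := rfl
  rw [h3, h4, Int.toNat_natCast]
  have h5 : (1 + 10 * k + j - 1) % 10 = j := by omega
  rw [h5]

theorem pos_succ_flow (M : Machine) (w : List ℕ) (a : R3) (k j : ℕ) (hj : j < 10) :
    pos (flowData M w) a (1 + 10 * k + (j + 1))
      = pos (flowData M w) a (1 + 10 * k + j)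
        + shearField ((shears M).getD j (0, [])) (pos (flowData M w) a (1 + 10 * k + j)) := by
  show pos (flowData M w) a ((1 + 10 * k + j) + 1) = _
  rw [pos, phase_flow M w k j hj]

theorem sval_mem (M : Machine) (l : List ℕ) (hl : ∀ x ∈ l, x < nD M) :
    0 ≤ sval (nB M) l ∧ sval (nB M) l ≤ 1 / 4 :=
  ⟨sval_nonneg l, (sval_lt (B := nB M) (nD_pos M) rfl l hl).le⟩

theorem step_positions (M : Machine) (hM : M.Valid) (w : List ℕ) (a : R3) (k : ℕ) (c : RCfg)
    (hc : RInv M c) (hq : c.2.1 < nQ M) (hpos : pos (flowData M w) a (1 + 10 * k) = enc M c) :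
    pos (flowData M w) a (1 + 10 * (k + 1)) = enc M (Rstep M c) ∧
      ∀ j ≤ 10, 0 ≤ pos (flowData M w) a (1 + 10 * k + j) 2 ∧
        pos (flowData M w) a (1 + 10 * k + j) 2 ≤ 1 / 4 := by
  obtain ⟨lam, q, d, rho⟩ := c
  obtain ⟨hlam, hq', hrho⟩ := hc
  simp only at hlam hq' hrho hq
  have hinv : RInv M (Rstep M (lam, q, d, rho)) := RInv_step M hM _ ⟨hlam, hq', hrho⟩ hq
  have htop : (if d then rho.headD 0 else lam.headD 0) < nC M := by
    split_ifs
    · exact headD_cell M hrho
    · exact headD_cell M hlam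
  have hr1 : ∀ x ∈ (if d then rho.tail else rho), x < nC M := by
    split_ifs
    · exact tail_dig hrho
    · exact hrho
  have dA := dig_of_cell M hq hlam
  have dB := dig_cons (sig_lt M hq.le d) (dig_of_cell M hq hrho)
  have dT := dig_cons (tau_lt M hq htop d) (dig_of_cell M hq hr1)
  have dA' := dig_of_cell M hq hinv.1
  have dB' := dig_cons (sig_lt M hinv.2.1 (Rstep M (lam, q, d, rho)).2.2.1)
    (dig_of_cell M hq hinv.2.2)
  set A := sval (nB M) lam with hA
  set Bv := sval (nB M) (sig q d :: rho) with hBv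
  set T := sval (nB M) (tau M q d (if d then rho.headD 0 else lam.headD 0)
        :: (if d then rho.tail else rho)) with hT
  set A' := sval (nB M) (Rstep M (lam, q, d, rho)).1 with hA'
  set B' := sval (nB M) (sig (Rstep M (lam, q, d, rho)).2.1 (Rstep M (lam, q, d, rho)).2.2.1
        :: (Rstep M (lam, q, d, rho)).2.2.2) with hB'
  have r0 : shearFn (haltPieces M) Bv A = 0 := by
    rw [hBv, hA, halt_eval q hq.le d rho lam (dig_of_cell M hq hrho) dA, if_neg hq.ne]
  have r1 : shearFn ((idxM M).map fun t => s1Piece (nB M) (readRule M t)) Bv A = T :=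
    read_S1 hq hlam hrho
  have r2 : shearFn ((idxM M).map fun t => s2Piece (nB M) (readRule M t)) T A = T - Bv :=
    read_S2 hq hlam hrho
  have r3 : shearFn clearPieces T A = - T := clear_eval _ _ dT dA
  have r4 : shearFn ((idxM M).map fun t => s1Piece (nB M) (midRule M t)) A T = A' :=
    mid_S1 hq hlam hrho
  have r5 : shearFn ((idxM M).map fun t => s2Piece (nB M) (midRule M t)) A' T = A' - A :=
    mid_S2 hq hlam hrho hinv.1
  have r6 : shearFn clearPieces A' T = - A' := clear_eval _ _ dA' dT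
  have r7 : shearFn ((idxM M).map fun t => s1Piece (nB M) (writeRule M t)) T A' = B' :=
    write_S1 hq hlam hrho hinv.1
  have r8 : shearFn ((idxM M).map fun t => s2Piece (nB M) (writeRule M t)) B' A' = B' - T :=
    write_S2 hM hq hlam hrho hinv
  have r9 : shearFn clearPieces B' A' = - B' := clear_eval _ _ dB' dA'
  clear_value A Bv T A' B'
  have e0 : pos (flowData M w) a (1 + 10 * k + 0) = ![A, Bv, 0] := by
    rw [hA, hBv]; exact hpos
  have e1 : pos (flowData M w) a (1 + 10 * k + 1) = ![A, Bv, 0] := by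
    rw [pos_succ_flow M w a k 0 (by norm_num), e0]
    simp only [shears, List.getD_cons_zero]
    rw [apply0, r0, add_zero]
  have e2 : pos (flowData M w) a (1 + 10 * k + 2) = ![A, Bv, T] := by
    rw [pos_succ_flow M w a k 1 (by norm_num), e1]
    simp only [shears, List.getD_cons_zero, List.getD_cons_succ]
    rw [apply0, r1, zero_add]
  have e3 : pos (flowData M w) a (1 + 10 * k + 3) = ![A, T, T] := by
    rw [pos_succ_flow M w a k 2 (by norm_num), e2]
    simp only [shears, List.getD_cons_zero, List.getD_cons_succ]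
    rw [apply1, r2, show Bv + (T - Bv) = T by ring]
  have e4 : pos (flowData M w) a (1 + 10 * k + 4) = ![A, T, 0] := by
    rw [pos_succ_flow M w a k 3 (by norm_num), e3]
    simp only [shears, List.getD_cons_zero, List.getD_cons_succ]
    rw [apply0, r3, show T + -T = 0 by ring]
  have e5 : pos (flowData M w) a (1 + 10 * k + 5) = ![A, T, A'] := by
    rw [pos_succ_flow M w a k 4 (by norm_num), e4]
    simp only [shears, List.getD_cons_zero, List.getD_cons_succ]
    rw [apply2, r4, zero_add]
  have e6 : pos (flowData M w) a (1 + 10 * k + 6) = ![A', T, A'] := by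
    rw [pos_succ_flow M w a k 5 (by norm_num), e5]
    simp only [shears, List.getD_cons_zero, List.getD_cons_succ]
    rw [apply3, r5, show A + (A' - A) = A' by ring]
  have e7 : pos (flowData M w) a (1 + 10 * k + 7) = ![A', T, 0] := by
    rw [pos_succ_flow M w a k 6 (by norm_num), e6]
    simp only [shears, List.getD_cons_zero, List.getD_cons_succ]
    rw [apply2, r6, show A' + -A' = 0 by ring]
  have e8 : pos (flowData M w) a (1 + 10 * k + 8) = ![A', T, B'] := by
    rw [pos_succ_flow M w a k 7 (by norm_num), e7]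
    simp only [shears, List.getD_cons_zero, List.getD_cons_succ]
    rw [apply0, r7, zero_add]
  have e9 : pos (flowData M w) a (1 + 10 * k + 9) = ![A', B', B'] := by
    rw [pos_succ_flow M w a k 8 (by norm_num), e8]
    simp only [shears, List.getD_cons_zero, List.getD_cons_succ]
    rw [apply1, r8, show T + (B' - T) = B' by ring]
  have e10 : pos (flowData M w) a (1 + 10 * k + 10) = ![A', B', 0] := by
    rw [pos_succ_flow M w a k 9 (by norm_num), e9]
    simp only [shears, List.getD_cons_zero, List.getD_cons_succ]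
    rw [apply0, r9, show B' + -B' = 0 by ring]
  have mT : 0 ≤ T ∧ T ≤ 1 / 4 := hT ▸ sval_mem M _ dT
  have mA' : 0 ≤ A' ∧ A' ≤ 1 / 4 := hA' ▸ sval_mem M _ dA'
  have mB' : 0 ≤ B' ∧ B' ≤ 1 / 4 := hB' ▸ sval_mem M _ dB'
  refine ⟨?_, ?_⟩
  · have : 1 + 10 * (k + 1) = 1 + 10 * k + 10 := by ring
    rw [this, e10, hA', hB']
    rfl
  · intro j hj
    interval_cases j
    · rw [e0]; show (0:ℝ) ≤ 0 ∧ (0:ℝ) ≤ 1 / 4; norm_num
    · rw [e1]; show (0:ℝ) ≤ 0 ∧ (0:ℝ) ≤ 1 / 4; norm_num
    · rw [e2]; exact mT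
    · rw [e3]; exact mT
    · rw [e4]; show (0:ℝ) ≤ 0 ∧ (0:ℝ) ≤ 1 / 4; norm_num
    · rw [e5]; exact mA'
    · rw [e6]; exact mA'
    · rw [e7]; show (0:ℝ) ≤ 0 ∧ (0:ℝ) ≤ 1 / 4; norm_num
    · rw [e8]; exact mB'
    · rw [e9]; exact mB'
    · rw [e10]; show (0:ℝ) ≤ 0 ∧ (0:ℝ) ≤ 1 / 4; norm_num

end Vale.Agent.Lib.P113
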