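import Vale.Agent.Lib.P113.Geo4
import Vale.Agent.Lib.P113_helper25.Traj

namespace Vale.Agent.Lib.P113

open Set

theorem qval_qsval (M : Machine) (l : List ℕ) : qval (qsval (nB M) l) = sval (nB M) l := by
  induction l with
  | nil => simp [qsval]
  | cons a l ih =>
    have : qsval (nB M) (a :: l) = qdiv (qadd (qnat a) (qsval (nB M) l)) (qnat (nB M)) := rfl
    rw [this, sval_cons]
    simp [ih]

theorem pos_one (M : Machine) (w : List ℕ) :
    pos (flowData M w) 0 1 = enc M (Rinit M w) := by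
  show pos (flowData M w) 0 0 + phase (flowData M w) ((0 : ℕ) : ℤ) (pos (flowData M w) 0 0) = _
  simp only [pos, phase, Nat.cast_zero, lt_self_iff_false, if_false, if_true, zero_add]
  simp only [flowData, enc, Rinit, qval_qzero, qval_qsval, sval_nil]

/-- the configuration of `R(M)` after `k` steps -/
def Rk (M : Machine) (w : List ℕ) (k : ℕ) : RCfg := (Rstep M)^[k] (Rinit M w)

theorem Rk_succ (M : Machine) (w : List ℕ) (k : ℕ) : Rk M w (k + 1) = Rstep M (Rk M w k) := by
  simp [Rk, Function.iterate_succ_apply']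

theorem orbit (M : Machine) (hM : M.Valid) (w : List ℕ) (hw : ∀ s ∈ w, s ≤ M.1) (k : ℕ)
    (hk : ∀ j < k, (Rk M w j).2.1 < nQ M) :
    pos (flowData M w) 0 (1 + 10 * k) = enc M (Rk M w k) ∧ RInv M (Rk M w k) ∧
      ∀ n ≤ 1 + 10 * k, 0 ≤ pos (flowData M w) 0 n 2 ∧ pos (flowData M w) 0 n 2 ≤ 1 / 4 := by
  induction k with
  | zero =>
    refine ⟨pos_one M w, RInv_init M w hw, ?_⟩
    intro n hn
    have : n = 0 ∨ n = 1 := by omega
    rcases this with rfl | rfl
    · simp [pos]
    · rw [pos_one]; show (0 : ℝ) ≤ 0 ∧ (0 : ℝ) ≤ 1 / 4; norm_num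
  | succ k ih =>
    obtain ⟨h1, h2, h3⟩ := ih (fun j hj => hk j (by omega))
    have hq := hk k (by omega)
    obtain ⟨s1, s2⟩ := step_positions M hM w 0 k (Rk M w k) h2 hq h1
    refine ⟨by rw [s1, Rk_succ], by rw [Rk_succ]; exact RInv_step M hM _ h2 hq, ?_⟩
    intro n hn
    by_cases hn' : n ≤ 1 + 10 * k
    · exact h3 n hn'
    · obtain ⟨j, rfl⟩ : ∃ j, n = 1 + 10 * k + j := ⟨n - (1 + 10 * k), by omega⟩
      exact s2 j (by omega)

/-- the target slab -/
def slab : Set R3 := {x : R3 | ∃ n : ℤ, (n : ℝ) + 9 / 16 < x 2 ∧ x 2 < (n : ℝ) + 11 / 16}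

theorem not_mem_slab {x : R3} (h0 : 0 ≤ x 2) (h1 : x 2 ≤ 1 / 4) : x ∉ slab := by
  rintro ⟨n, hn1, hn2⟩
  have h : (n : ℝ) < 0 := by linarith
  have h' : n < 0 := by exact_mod_cast h
  have h'' : n ≤ -1 := by omega
  have : (n : ℝ) ≤ -1 := by exact_mod_cast h''
  linarith

theorem hits_iff (M : Machine) (hM : M.Valid) (w : List ℕ) (hw : ∀ s ∈ w, s ≤ M.1)
    (X : ℝ → R3) (hX : IsTrajectory (vel (flowData M w)) 0 X) :
    (∃ t, 0 ≤ t ∧ X t ∈ slab) ↔ M.HaltsOn w := by
  rw [halts_iff_R M hM w hw]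
  constructor
  · rintro ⟨t, ht, hmem⟩
    by_contra hno
    push_neg at hno
    have hall : ∀ k, (Rk M w k).2.1 < nQ M := by
      intro k
      induction k using Nat.strong_induction_on with
      | _ k ih =>
        have := (orbit M hM w hw k ih).2.1.2.1
        exact lt_of_le_of_ne this (hno k)
    have hpos : ∀ n, 0 ≤ pos (flowData M w) 0 n 2 ∧ pos (flowData M w) 0 n 2 ≤ 1 / 4 := by
      intro n
      exact (orbit M hM w hw n (fun j _ => hall j)).2.2 n (by omega)
    set n := ⌊t⌋₊ with hn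
    have h1 : (n : ℝ) ≤ t := Nat.floor_le ht
    have h2 : t < (n : ℝ) + 1 := Nat.lt_floor_add_one t
    have hf := trajectory_formula (flowData M w) 0 X hX n t ⟨h1, h2.le⟩
    have hs0 := sgt_nonneg (t - n)
    have hs1 := sgt_le_one (t - n)
    have hp : phase (flowData M w) n (pos (flowData M w) 0 n) 2
        = pos (flowData M w) 0 (n + 1) 2 - pos (flowData M w) 0 n 2 := by
      show _ = (pos (flowData M w) 0 n + phase (flowData M w) n (pos (flowData M w) 0 n)) 2 - _
      simp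
    have hx : X t 2 = pos (flowData M w) 0 n 2
        + sgt (t - n) * (pos (flowData M w) 0 (n + 1) 2 - pos (flowData M w) 0 n 2) := by
      rw [hf]; simp [hp]
    have a0 := hpos n
    have a1 := hpos (n + 1)
    apply not_mem_slab (x := X t) _ _ hmem
    · rw [hx]; nlinarith
    · rw [hx]; nlinarith
  · intro hex
    classical
    set k := Nat.find hex with hk
    have hkspec : (Rk M w k).2.1 = nQ M := Nat.find_spec hex
    have hmin : ∀ j < k, (Rk M w j).2.1 < nQ M := by
      intro j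
      induction j using Nat.strong_induction_on with
      | _ j ih =>
        intro hj
        have := (orbit M hM w hw j (fun i hi => ih i hi (by omega))).2.1.2.1
        exact lt_of_le_of_ne this (Nat.find_min hex hj)
    obtain ⟨h1, h2, _⟩ := orbit M hM w hw k hmin
    have e1 := pos_succ_flow M w 0 k 0 (by norm_num)
    refine ⟨((1 + 10 * k + (0 + 1) : ℕ) : ℝ), by positivity, ?_⟩
    rw [trajectory_nat (flowData M w) 0 X hX, e1]
    have e0 : pos (flowData M w) 0 (1 + 10 * k + 0) = enc M (Rk M w k) := h1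
    rw [e0]
    simp only [shears, List.getD_cons_zero, enc]
    rw [apply0, halt_eval _ h2.2.1 _ _ _
      (fun x hx => lt_of_lt_of_le (h2.2.2 x hx) (nC_le_nD' M))
      (fun x hx => lt_of_lt_of_le (h2.1 x hx) (nC_le_nD' M)), if_pos hkspec]
    refine ⟨0, ?_, ?_⟩
    · show ((0 : ℤ) : ℝ) + 9 / 16 < 0 + 5 / 8; norm_num
    · show (0 : ℝ) + 5 / 8 < ((0 : ℤ) : ℝ) + 11 / 16; norm_num

end Vale.Agent.Lib.P113
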