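import Mathlib.Computability.Primrec.List
import Mathlib.Computability.Partrec
import Mathlib.Tactic.FunProp

/-!
Automation set-up: `fun_prop` proves `Primrec` goals.
-/

attribute [fun_prop] Primrec

namespace Vale.Agent.Lib.P113

variable {α β γ σ : Type*} [Primcodable α] [Primcodable β] [Primcodable γ] [Primcodable σ]

@[fun_prop] theorem pr_id : Primrec (fun x : α => x) := Primrec.id
@[fun_prop] theorem pr_const (c : β) : Primrec (fun _ : α => c) := Primrec.const c
@[fun_prop] theorem pr_comp {f : β → γ} {g : α → β} (hf : Primrec f) (hg : Primrec g) :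
    Primrec (fun x => f (g x)) := hf.comp hg
@[fun_prop] theorem pr_pair {f : α → β} {g : α → γ} (hf : Primrec f) (hg : Primrec g) :
    Primrec (fun x => (f x, g x)) := hf.pair hg
@[fun_prop] theorem pr_fst {f : α → β × γ} (hf : Primrec f) : Primrec (fun x => (f x).1) :=
  Primrec.fst.comp hf
@[fun_prop] theorem pr_snd {f : α → β × γ} (hf : Primrec f) : Primrec (fun x => (f x).2) :=
  Primrec.snd.comp hf
@[fun_prop] theorem pr_add {f g : α → ℕ} (hf : Primrec f) (hg : Primrec g) :
    Primrec (fun x => f x + g x) := Primrec.nat_add.comp hf hg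
@[fun_prop] theorem pr_mul {f g : α → ℕ} (hf : Primrec f) (hg : Primrec g) :
    Primrec (fun x => f x * g x) := Primrec.nat_mul.comp hf hg
@[fun_prop] theorem pr_sub {f g : α → ℕ} (hf : Primrec f) (hg : Primrec g) :
    Primrec (fun x => f x - g x) := Primrec.nat_sub.comp hf hg
@[fun_prop] theorem pr_div {f g : α → ℕ} (hf : Primrec f) (hg : Primrec g) :
    Primrec (fun x => f x / g x) := Primrec.nat_div.comp hf hg
@[fun_prop] theorem pr_mod {f g : α → ℕ} (hf : Primrec f) (hg : Primrec g) :
    Primrec (fun x => f x % g x) := Primrec.nat_mod.comp hf hg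
@[fun_prop] theorem pr_succ {f : α → ℕ} (hf : Primrec f) :
    Primrec (fun x => Nat.succ (f x)) := Primrec.succ.comp hf
@[fun_prop] theorem pr_max {f g : α → ℕ} (hf : Primrec f) (hg : Primrec g) :
    Primrec (fun x => max (f x) (g x)) := Primrec.nat_max.comp hf hg
@[fun_prop] theorem pr_min {f g : α → ℕ} (hf : Primrec f) (hg : Primrec g) :
    Primrec (fun x => min (f x) (g x)) := Primrec.nat_min.comp hf hg
@[fun_prop] theorem pr_pow {f g : α → ℕ} (hf : Primrec f) (hg : Primrec g) :
    Primrec (fun x => f x ^ g x) :=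
  (Primrec₂.unpaired'.1 Nat.Primrec.pow).comp hf hg

@[fun_prop] theorem pr_ite_le {f g : α → ℕ} {h k : α → σ} (hf : Primrec f) (hg : Primrec g)
    (hh : Primrec h) (hk : Primrec k) : Primrec (fun x => if f x ≤ g x then h x else k x) :=
  Primrec.ite (Primrec.nat_le.comp hf hg) hh hk
@[fun_prop] theorem pr_ite_lt {f g : α → ℕ} {h k : α → σ} (hf : Primrec f) (hg : Primrec g)
    (hh : Primrec h) (hk : Primrec k) : Primrec (fun x => if f x < g x then h x else k x) :=
  Primrec.ite (Primrec.nat_lt.comp hf hg) hh hk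
@[fun_prop] theorem pr_ite_eq [DecidableEq β] {f g : α → β} {h k : α → σ} (hf : Primrec f)
    (hg : Primrec g) (hh : Primrec h) (hk : Primrec k) :
    Primrec (fun x => if f x = g x then h x else k x) :=
  Primrec.ite (Primrec.eq.comp hf hg) hh hk
@[fun_prop] theorem pr_cond {c : α → Bool} {h k : α → σ} (hc : Primrec c)
    (hh : Primrec h) (hk : Primrec k) : Primrec (fun x => cond (c x) (h x) (k x)) :=
  Primrec.cond hc hh hk

@[fun_prop] theorem pr_cons {f : α → β} {g : α → List β} (hf : Primrec f) (hg : Primrec g) :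
    Primrec (fun x => f x :: g x) := Primrec.list_cons.comp hf hg
@[fun_prop] theorem pr_append {f g : α → List β} (hf : Primrec f) (hg : Primrec g) :
    Primrec (fun x => f x ++ g x) := Primrec.list_append.comp hf hg
@[fun_prop] theorem pr_map {f : α → List β} {g : α → β → σ} (hf : Primrec f)
    (hg : Primrec (fun p : α × β => g p.1 p.2)) : Primrec (fun a => (f a).map (g a)) :=
  Primrec.list_map hf hg
@[fun_prop] theorem pr_flatMap {f : α → List β} {g : α → β → List σ} (hf : Primrec f)
    (hg : Primrec (fun p : α × β => g p.1 p.2)) : Primrec (fun a => (f a).flatMap (g a)) :=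
  Primrec.list_flatMap hf hg
@[fun_prop] theorem pr_range {f : α → ℕ} (hf : Primrec f) : Primrec (fun a => List.range (f a)) :=
  Primrec.list_range.comp hf
@[fun_prop] theorem pr_length {f : α → List β} (hf : Primrec f) :
    Primrec (fun a => (f a).length) := Primrec.list_length.comp hf
@[fun_prop] theorem pr_tail {f : α → List β} (hf : Primrec f) :
    Primrec (fun a => (f a).tail) := Primrec.list_tail.comp hf
@[fun_prop] theorem pr_getD {f : α → List β} {g : α → ℕ} {d : α → β} (hf : Primrec f)
    (hg : Primrec g) (hd : Primrec d) : Primrec (fun a => (f a).getD (g a) (d a)) := by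
  have h : Primrec (fun a => ((f a)[g a]?).getD (d a)) :=
    Primrec.option_getD.comp (Primrec.list_getElem?.comp hf hg) hd
  exact h.of_eq fun a => by simp [List.getD_eq_getElem?_getD]
@[fun_prop] theorem pr_foldr {f : α → List β} {g : α → σ} {h : α → β → σ → σ} (hf : Primrec f)
    (hg : Primrec g) (hh : Primrec (fun p : α × β × σ => h p.1 p.2.1 p.2.2)) :
    Primrec (fun a => (f a).foldr (h a) (g a)) :=
  Primrec.list_foldr (h := fun a p => h a p.1 p.2) hf hg hh
@[fun_prop] theorem pr_foldl {f : α → List β} {g : α → σ} {h : α → σ → β → σ} (hf : Primrec f)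
    (hg : Primrec g) (hh : Primrec (fun p : α × σ × β => h p.1 p.2.1 p.2.2)) :
    Primrec (fun a => (f a).foldl (h a) (g a)) :=
  Primrec.list_foldl (h := fun a p => h a p.1 p.2) hf hg hh
@[fun_prop] theorem pr_iterate {f : α → ℕ} {g : α → β} {h : α → β → β} (hf : Primrec f)
    (hg : Primrec g) (hh : Primrec (fun p : α × β => h p.1 p.2)) :
    Primrec (fun a => (h a)^[f a] (g a)) :=
  Primrec.nat_iterate hf hg hh
@[fun_prop] theorem pr_finval {n : ℕ} {f : α → Fin n} (hf : Primrec f) :
    Primrec (fun a => ((f a : Fin n) : ℕ)) := Primrec.fin_val.comp hf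

example : Primrec (fun p : ℕ × ℕ =>
    ((List.range p.1).map (fun i => i * p.2 + p.1)).foldr (fun a b => a + 2 * b) 0) := by fun_prop
example : Primrec (fun p : ℕ × List ℕ => (fun l => p.1 :: l.tail)^[p.1 ^ 2] p.2) := by fun_prop

end Vale.Agent.Lib.P113
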