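import Vale.Agent.Lib.P113.QArith

/-!
Real-valued functions that can be approximated primitive recursively.
-/

namespace Vale.Agent.Lib.P113

variable {α β : Type*} [Primcodable α] [Primcodable β]

/-- `F` is approximable: a primitive recursive `g` gives rationals within `1/(n+1)` of `F a`. -/
def PRReal (F : α → ℝ) : Prop :=
  ∃ g : α × ℕ → Q, Primrec g ∧ ∀ a n, |F a - qval (g (a, n))| ≤ 1 / ((n : ℝ) + 1)

theorem PRReal.of_eq {F G : α → ℝ} (hF : PRReal F) (h : ∀ a, F a = G a) : PRReal G := by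
  have : F = G := funext h
  rwa [← this]

theorem PRReal.ofQ {r : α → Q} (hr : Primrec r) : PRReal (fun a => qval (r a)) :=
  ⟨fun p => r p.1, by fun_prop, fun a n => by simp; positivity⟩

theorem PRReal.const_nat (k : ℕ) : PRReal (fun _ : α => (k : ℝ)) :=
  (PRReal.ofQ (r := fun _ => qnat k) (by fun_prop)).of_eq fun a => by simp

theorem PRReal.zero : PRReal (fun _ : α => (0 : ℝ)) :=
  (PRReal.const_nat 0).of_eq fun a => by simp

theorem PRReal.one : PRReal (fun _ : α => (1 : ℝ)) :=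
  (PRReal.const_nat 1).of_eq fun a => by simp

theorem PRReal.comp {F : β → ℝ} (hF : PRReal F) {h : α → β} (hh : Primrec h) :
    PRReal (fun a => F (h a)) := by
  obtain ⟨g, hg, hb⟩ := hF
  exact ⟨fun p => g (h p.1, p.2), by fun_prop, fun a n => hb (h a) n⟩

theorem inv_le_of_mul_le {n m k : ℕ} (h : (n + 1) * k ≤ m + 1) :
    (k : ℝ) / ((m : ℝ) + 1) ≤ 1 / ((n : ℝ) + 1) := by
  rw [div_le_div_iff₀ (by positivity) (by positivity)]
  have : (((n + 1) * k : ℕ) : ℝ) ≤ ((m + 1 : ℕ) : ℝ) := by exact_mod_cast h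
  push_cast at this
  linarith

theorem PRReal.add {F G : α → ℝ} (hF : PRReal F) (hG : PRReal G) :
    PRReal (fun a => F a + G a) := by
  obtain ⟨f, hf, hfb⟩ := hF
  obtain ⟨g, hg, hgb⟩ := hG
  refine ⟨fun p => qadd (f (p.1, 2 * p.2 + 1)) (g (p.1, 2 * p.2 + 1)), by fun_prop, fun a n => ?_⟩
  have h1 := hfb a (2 * n + 1)
  have h2 := hgb a (2 * n + 1)
  have h3 : (2 : ℝ) / (((2 * n + 1 : ℕ) : ℝ) + 1) ≤ 1 / ((n : ℝ) + 1) := by
    have := inv_le_of_mul_le (n := n) (m := 2 * n + 1) (k := 2) (by omega)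
    simpa using this
  simp only [qval_qadd]
  calc |F a + G a - (qval (f (a, 2 * n + 1)) + qval (g (a, 2 * n + 1)))|
      = |(F a - qval (f (a, 2 * n + 1))) + (G a - qval (g (a, 2 * n + 1)))| := by ring_nf
    _ ≤ _ := abs_add_le _ _
    _ ≤ 1 / (((2 * n + 1 : ℕ) : ℝ) + 1) + 1 / (((2 * n + 1 : ℕ) : ℝ) + 1) := add_le_add h1 h2
    _ = (2 : ℝ) / (((2 * n + 1 : ℕ) : ℝ) + 1) := by ring
    _ ≤ _ := h3

theorem PRReal.neg {F : α → ℝ} (hF : PRReal F) : PRReal (fun a => - F a) := by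
  obtain ⟨f, hf, hfb⟩ := hF
  refine ⟨fun p => qneg (f p), by fun_prop, fun a n => ?_⟩
  have := hfb a n
  simp only [qval_qneg]
  rwa [← abs_neg, show -(-F a - -qval (f (a, n))) = F a - qval (f (a, n)) by ring]

theorem PRReal.sub {F G : α → ℝ} (hF : PRReal F) (hG : PRReal G) :
    PRReal (fun a => F a - G a) :=
  (hF.add hG.neg).of_eq fun a => by ring

theorem PRReal.mul {F G : α → ℝ} (hF : PRReal F) (hG : PRReal G) :
    PRReal (fun a => F a * G a) := by
  obtain ⟨f, hf, hfb⟩ := hF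
  obtain ⟨g, hg, hgb⟩ := hG
  let m : α × ℕ → ℕ := fun p => (p.2 + 1) * (qbd (f (p.1, 0)) + qbd (g (p.1, 0)) + 3)
  have hm : Primrec m := by fun_prop
  refine ⟨fun p => qmul (f (p.1, m p)) (g (p.1, m p)), by fun_prop, fun a n => ?_⟩
  set M := m (a, n) with hM
  have hF0 : |F a| ≤ (qbd (f (a, 0)) : ℝ) + 1 := by
    have h0 := hfb a 0
    have h1 := abs_qval_le (f (a, 0))
    have : |F a| ≤ |F a - qval (f (a, 0))| + |qval (f (a, 0))| := by
      have := abs_add_le (F a - qval (f (a, 0))) (qval (f (a, 0)))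
      simpa using this
    simp at h0
    linarith
  have hG0 : |G a| ≤ (qbd (g (a, 0)) : ℝ) + 1 := by
    have h0 := hgb a 0
    have h1 := abs_qval_le (g (a, 0))
    have : |G a| ≤ |G a - qval (g (a, 0))| + |qval (g (a, 0))| := by
      have := abs_add_le (G a - qval (g (a, 0))) (qval (g (a, 0)))
      simpa using this
    simp at h0
    linarith
  have h1 := hfb a M
  have h2 := hgb a M
  have hle1 : (1 : ℝ) / ((M : ℝ) + 1) ≤ 1 := by
    rw [div_le_one (by positivity)]; linarith [Nat.cast_nonneg (α := ℝ) M]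
  have hgM : |qval (g (a, M))| ≤ (qbd (g (a, 0)) : ℝ) + 2 := by
    have : |qval (g (a, M))| ≤ |G a - qval (g (a, M))| + |G a| := by
      have := abs_sub_abs_le_abs_sub (qval (g (a, M))) (G a)
      rw [abs_sub_comm] at this
      linarith
    linarith
  have key : ((qbd (f (a, 0)) + qbd (g (a, 0)) + 3 : ℕ) : ℝ) / ((M : ℝ) + 1) ≤ 1 / ((n : ℝ) + 1) :=
    inv_le_of_mul_le (by simp only [hM, m]; omega)
  simp only [qval_qmul]
  have hpos : (0 : ℝ) < (M : ℝ) + 1 := by positivity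
  calc |F a * G a - qval (f (a, M)) * qval (g (a, M))|
      = |F a * (G a - qval (g (a, M))) + (F a - qval (f (a, M))) * qval (g (a, M))| := by ring_nf
    _ ≤ |F a * (G a - qval (g (a, M)))| + |(F a - qval (f (a, M))) * qval (g (a, M))| :=
        abs_add_le _ _
    _ = |F a| * |G a - qval (g (a, M))| + |F a - qval (f (a, M))| * |qval (g (a, M))| := by
        rw [abs_mul, abs_mul]
    _ ≤ ((qbd (f (a, 0)) : ℝ) + 1) * (1 / ((M : ℝ) + 1))
          + (1 / ((M : ℝ) + 1)) * ((qbd (g (a, 0)) : ℝ) + 2) := by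
        gcongr
    _ = ((qbd (f (a, 0)) + qbd (g (a, 0)) + 3 : ℕ) : ℝ) / ((M : ℝ) + 1) := by
        push_cast; ring
    _ ≤ _ := key

theorem PRReal.ite_le {f g : α → ℕ} (hf : Primrec f) (hg : Primrec g) {F G : α → ℝ}
    (hF : PRReal F) (hG : PRReal G) : PRReal (fun a => if f a ≤ g a then F a else G a) := by
  obtain ⟨u, hu, hub⟩ := hF
  obtain ⟨v, hv, hvb⟩ := hG
  refine ⟨fun p => if f p.1 ≤ g p.1 then u p else v p, by fun_prop, fun a n => ?_⟩
  dsimp only
  split_ifs
  · exact hub a n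
  · exact hvb a n

theorem PRReal.ite_lt {f g : α → ℕ} (hf : Primrec f) (hg : Primrec g) {F G : α → ℝ}
    (hF : PRReal F) (hG : PRReal G) : PRReal (fun a => if f a < g a then F a else G a) := by
  obtain ⟨u, hu, hub⟩ := hF
  obtain ⟨v, hv, hvb⟩ := hG
  refine ⟨fun p => if f p.1 < g p.1 then u p else v p, by fun_prop, fun a n => ?_⟩
  dsimp only
  split_ifs
  · exact hub a n
  · exact hvb a n

theorem PRReal.ite_eq {f g : α → ℕ} (hf : Primrec f) (hg : Primrec g) {F G : α → ℝ}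
    (hF : PRReal F) (hG : PRReal G) : PRReal (fun a => if f a = g a then F a else G a) := by
  obtain ⟨u, hu, hub⟩ := hF
  obtain ⟨v, hv, hvb⟩ := hG
  refine ⟨fun p => if f p.1 = g p.1 then u p else v p, by fun_prop, fun a n => ?_⟩
  dsimp only
  split_ifs
  · exact hub a n
  · exact hvb a n

theorem abs_list_sum_sub_le {ι : Type*} (l : List ι) (u v : ι → ℝ) (ε : ℝ)
    (h : ∀ i ∈ l, |u i - v i| ≤ ε) :
    |(l.map u).sum - (l.map v).sum| ≤ l.length * ε := by
  induction l with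
  | nil => simp
  | cons a l ih =>
    have h1 := h a (by simp)
    have h2 := ih (fun i hi => h i (by simp [hi]))
    simp only [List.map_cons, List.sum_cons, List.length_cons]
    push_cast
    calc |u a + (l.map u).sum - (v a + (l.map v).sum)|
        = |(u a - v a) + ((l.map u).sum - (l.map v).sum)| := by ring_nf
      _ ≤ |u a - v a| + |(l.map u).sum - (l.map v).sum| := abs_add_le _ _
      _ ≤ ε + l.length * ε := add_le_add h1 h2
      _ = _ := by ring

theorem PRReal.list_sum {L : α → List β} (hL : Primrec L) {F : α × β → ℝ} (hF : PRReal F) :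
    PRReal (fun a => ((L a).map (fun b => F (a, b))).sum) := by
  obtain ⟨f, hf, hfb⟩ := hF
  refine ⟨fun p => qsum ((L p.1).map (fun b => f ((p.1, b), (p.2 + 1) * (L p.1).length))),
    by fun_prop, fun a n => ?_⟩
  simp only [qval_qsum, List.map_map]
  set M := (n + 1) * (L a).length with hM
  have h := abs_list_sum_sub_le (L a) (fun b => F (a, b)) (qval ∘ fun b => f ((a, b), M))
    (1 / ((M : ℝ) + 1)) (fun i _ => hfb (a, i) M)
  refine h.trans ?_
  have := inv_le_of_mul_le (n := n) (m := M) (k := (L a).length) (by omega)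
  calc ((L a).length : ℝ) * (1 / ((M : ℝ) + 1)) = ((L a).length : ℝ) / ((M : ℝ) + 1) := by ring
    _ ≤ _ := this

theorem abs_pow_sub_pow_le_of_unit {a b : ℝ} (ha : 0 ≤ a) (ha1 : a ≤ 1) (hb : 0 ≤ b) (hb1 : b ≤ 1)
    (k : ℕ) : |a ^ k - b ^ k| ≤ k * |a - b| := by
  induction k with
  | zero => simp
  | succ k ih =>
    have h1 : a ^ (k + 1) - b ^ (k + 1) = a * (a ^ k - b ^ k) + (a - b) * b ^ k := by ring
    have h2 : |b ^ k| ≤ 1 := by
      rw [abs_of_nonneg (pow_nonneg hb k)]; exact pow_le_one₀ hb hb1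
    rw [h1]
    calc |a * (a ^ k - b ^ k) + (a - b) * b ^ k|
        ≤ |a * (a ^ k - b ^ k)| + |(a - b) * b ^ k| := abs_add_le _ _
      _ = |a| * |a ^ k - b ^ k| + |a - b| * |b ^ k| := by rw [abs_mul, abs_mul]
      _ ≤ 1 * (k * |a - b|) + |a - b| * 1 := by
          gcongr
          rw [abs_of_nonneg ha]; exact ha1
      _ = _ := by push_cast; ring

/-- clamp a rational to `[0,1]` -/
def qclamp (r : Q) : Q := qmin (qmax r (0, 0, 0)) (1, 0, 0)

@[fun_prop] theorem pr_qclamp {f : α → Q} (hf : Primrec f) :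
    Primrec (fun x => qclamp (f x)) := by unfold qclamp; fun_prop

theorem qval_qclamp (r : Q) : qval (qclamp r) = min (max (qval r) 0) 1 := by
  have hz : qval ((0, 0, 0) : Q) = 0 := by simp [qval]
  have ho : qval ((1, 0, 0) : Q) = 1 := by simp [qval]
  simp only [qclamp, qval_qmin, qval_qmax, hz, ho]

theorem qclamp_mem (r : Q) : 0 ≤ qval (qclamp r) ∧ qval (qclamp r) ≤ 1 := by
  rw [qval_qclamp]
  exact ⟨le_min (le_max_right _ _) zero_le_one, min_le_right _ _⟩

theorem abs_sub_qclamp_le {x : ℝ} (h0 : 0 ≤ x) (h1 : x ≤ 1) (r : Q) :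
    |x - qval (qclamp r)| ≤ |x - qval r| := by
  rw [qval_qclamp]
  rcases le_total (qval r) 0 with h | h
  · rw [max_eq_right h, min_eq_left zero_le_one, abs_of_nonneg (by linarith),
      abs_of_nonneg (by linarith)]
    linarith
  · rw [max_eq_left h]
    rcases le_total (qval r) 1 with h' | h'
    · rw [min_eq_left h']
    · rw [min_eq_right h', abs_of_nonpos (by linarith), abs_of_nonpos (by linarith)]
      linarith

theorem PRReal.pow_unit {F : α → ℝ} (hF : PRReal F) (h01 : ∀ a, 0 ≤ F a ∧ F a ≤ 1)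
    {k : α → ℕ} (hk : Primrec k) : PRReal (fun a => F a ^ k a) := by
  obtain ⟨f, hf, hfb⟩ := hF
  refine ⟨fun p => qpow (qclamp (f (p.1, (p.2 + 1) * k p.1))) (k p.1), by fun_prop, fun a n => ?_⟩
  simp only [qval_qpow]
  set M := (n + 1) * k a with hM
  have h1 := abs_pow_sub_pow_le_of_unit (h01 a).1 (h01 a).2 (qclamp_mem (f (a, M))).1
    (qclamp_mem (f (a, M))).2 (k a)
  have h2 := abs_sub_qclamp_le (h01 a).1 (h01 a).2 (f (a, M))
  have h3 := hfb a M
  have h4 := inv_le_of_mul_le (n := n) (m := M) (k := k a) (by omega)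
  calc |F a ^ k a - qval (qclamp (f (a, M))) ^ k a| ≤ (k a : ℝ) * |F a - qval (qclamp (f (a, M)))| := h1
    _ ≤ (k a : ℝ) * (1 / ((M : ℝ) + 1)) := by gcongr; exact h2.trans h3
    _ = (k a : ℝ) / ((M : ℝ) + 1) := by ring
    _ ≤ _ := h4

/-- `1 / (1 + F)` for nonnegative `F`. -/
theorem PRReal.inv_one_add {F : α → ℝ} (hF : PRReal F) (h0 : ∀ a, 0 ≤ F a) :
    PRReal (fun a => 1 / (1 + F a)) := by
  obtain ⟨f, hf, hfb⟩ := hF
  refine ⟨fun p => qinv (qadd (1, 0, 0) (qmax (f p) (0, 0, 0))), by fun_prop, fun a n => ?_⟩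
  have hz : qval ((0, 0, 0) : Q) = 0 := by simp [qval]
  have ho : qval ((1, 0, 0) : Q) = 1 := by simp [qval]
  simp only [qval_qinv, qval_qadd, qval_qmax, hz, ho]
  set y := max (qval (f (a, n))) 0 with hy
  have hy0 : 0 ≤ y := le_max_right _ _
  have hyF : |F a - y| ≤ |F a - qval (f (a, n))| := by
    rcases le_total (qval (f (a, n))) 0 with h | h
    · rw [hy, max_eq_right h, abs_of_nonneg (by linarith [h0 a]), abs_of_nonneg (by linarith [h0 a])]
      linarith
    · rw [hy, max_eq_left h]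
  have h1 : 1 / (1 + F a) - (1 + y)⁻¹ = (y - F a) / ((1 + F a) * (1 + y)) := by
    have := h0 a
    field_simp
    ring
  rw [h1, abs_div, abs_sub_comm]
  have h2 : (1 : ℝ) ≤ |(1 + F a) * (1 + y)| := by
    rw [abs_of_nonneg (by have := h0 a; positivity)]
    have := h0 a
    nlinarith
  calc |F a - y| / |(1 + F a) * (1 + y)| ≤ |F a - y| / 1 := by gcongr
    _ = |F a - y| := by ring
    _ ≤ _ := hyF.trans (hfb a n)

end Vale.Agent.Lib.P113
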