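import Vale.Agent.Lib.P113.Defs
import Vale.Agent.Lib.P113.PR

/-!
Exact rational arithmetic on triples of naturals, primitive recursive.
-/

namespace Vale.Agent.Lib.P113

abbrev Q : Type := ℕ × ℕ × ℕ

variable {α : Type*} [Primcodable α]

def qadd (r s : Q) : Q :=
  (r.1 * (s.2.2 + 1) + s.1 * (r.2.2 + 1), r.2.1 * (s.2.2 + 1) + s.2.1 * (r.2.2 + 1),
    r.2.2 * s.2.2 + r.2.2 + s.2.2)
def qneg (r : Q) : Q := (r.2.1, r.1, r.2.2)
def qsub (r s : Q) : Q := qadd r (qneg s)
def qmul (r s : Q) : Q :=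
  (r.1 * s.1 + r.2.1 * s.2.1, r.1 * s.2.1 + r.2.1 * s.1, r.2.2 * s.2.2 + r.2.2 + s.2.2)
def qnat (n : ℕ) : Q := (n, 0, 0)
/-- `a / (b+1)` -/
def qfrac (a b : ℕ) : Q := (a, 0, b)
def qinv (r : Q) : Q :=
  if r.2.1 < r.1 then (r.2.2 + 1, 0, r.1 - r.2.1 - 1)
  else if r.1 < r.2.1 then (0, r.2.2 + 1, r.2.1 - r.1 - 1) else (0, 0, 0)
def qdiv (r s : Q) : Q := qmul r (qinv s)
def qpow (r : Q) (k : ℕ) : Q := (qmul r)^[k] (1, 0, 0)
/-- left and right sides of the comparison `r ≤ s` cleared of denominators -/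
def qleL (r s : Q) : ℕ := r.1 * (s.2.2 + 1) + s.2.1 * (r.2.2 + 1)
def qleR (r s : Q) : ℕ := s.1 * (r.2.2 + 1) + r.2.1 * (s.2.2 + 1)
/-- floor, as an integer-valued rational -/
def qfloor (r : Q) : Q :=
  if r.2.1 ≤ r.1 then ((r.1 - r.2.1) / (r.2.2 + 1), 0, 0)
  else (0, (r.2.1 - r.1 + r.2.2) / (r.2.2 + 1), 0)
def qsum (l : List Q) : Q := l.foldr qadd (0, 0, 0)
/-- a natural number bounding the absolute value -/
def qbd (r : Q) : ℕ := r.1 + r.2.1
def qmax (r s : Q) : Q := if qleL r s ≤ qleR r s then s else r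
def qmin (r s : Q) : Q := if qleL r s ≤ qleR r s then r else s

@[fun_prop] theorem pr_qadd {f g : α → Q} (hf : Primrec f) (hg : Primrec g) :
    Primrec (fun x => qadd (f x) (g x)) := by unfold qadd; fun_prop
@[fun_prop] theorem pr_qneg {f : α → Q} (hf : Primrec f) :
    Primrec (fun x => qneg (f x)) := by unfold qneg; fun_prop
@[fun_prop] theorem pr_qsub {f g : α → Q} (hf : Primrec f) (hg : Primrec g) :
    Primrec (fun x => qsub (f x) (g x)) := by unfold qsub; fun_prop
@[fun_prop] theorem pr_qmul {f g : α → Q} (hf : Primrec f) (hg : Primrec g) :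
    Primrec (fun x => qmul (f x) (g x)) := by unfold qmul; fun_prop
@[fun_prop] theorem pr_qnat {f : α → ℕ} (hf : Primrec f) :
    Primrec (fun x => qnat (f x)) := by unfold qnat; fun_prop
@[fun_prop] theorem pr_qfrac {f g : α → ℕ} (hf : Primrec f) (hg : Primrec g) :
    Primrec (fun x => qfrac (f x) (g x)) := by unfold qfrac; fun_prop
@[fun_prop] theorem pr_qinv {f : α → Q} (hf : Primrec f) :
    Primrec (fun x => qinv (f x)) := by unfold qinv; fun_prop
@[fun_prop] theorem pr_qdiv {f g : α → Q} (hf : Primrec f) (hg : Primrec g) :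
    Primrec (fun x => qdiv (f x) (g x)) := by unfold qdiv; fun_prop
@[fun_prop] theorem pr_qpow {f : α → Q} {g : α → ℕ} (hf : Primrec f) (hg : Primrec g) :
    Primrec (fun x => qpow (f x) (g x)) := by unfold qpow; fun_prop
@[fun_prop] theorem pr_qleL {f g : α → Q} (hf : Primrec f) (hg : Primrec g) :
    Primrec (fun x => qleL (f x) (g x)) := by unfold qleL; fun_prop
@[fun_prop] theorem pr_qleR {f g : α → Q} (hf : Primrec f) (hg : Primrec g) :
    Primrec (fun x => qleR (f x) (g x)) := by unfold qleR; fun_prop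
@[fun_prop] theorem pr_qfloor {f : α → Q} (hf : Primrec f) :
    Primrec (fun x => qfloor (f x)) := by unfold qfloor; fun_prop
@[fun_prop] theorem pr_qsum {f : α → List Q} (hf : Primrec f) :
    Primrec (fun x => qsum (f x)) := by unfold qsum; fun_prop
@[fun_prop] theorem pr_qbd {f : α → Q} (hf : Primrec f) :
    Primrec (fun x => qbd (f x)) := by unfold qbd; fun_prop
@[fun_prop] theorem pr_qmax {f g : α → Q} (hf : Primrec f) (hg : Primrec g) :
    Primrec (fun x => qmax (f x) (g x)) := by unfold qmax; fun_prop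
@[fun_prop] theorem pr_qmin {f g : α → Q} (hf : Primrec f) (hg : Primrec g) :
    Primrec (fun x => qmin (f x) (g x)) := by unfold qmin; fun_prop

theorem qden_pos (r : Q) : (0 : ℝ) < (r.2.2 : ℝ) + 1 := by positivity

@[simp] theorem qval_qadd (r s : Q) : qval (qadd r s) = qval r + qval s := by
  have h1 := qden_pos r
  have h2 := qden_pos s
  simp only [qval, qadd]
  push_cast
  rw [div_add_div _ _ h1.ne' h2.ne', div_eq_div_iff (by positivity) (by positivity)]
  ring
@[simp] theorem qval_qneg (r : Q) : qval (qneg r) = - qval r := by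
  simp only [qval, qneg]; ring
@[simp] theorem qval_qsub (r s : Q) : qval (qsub r s) = qval r - qval s := by
  simp [qsub, sub_eq_add_neg]
@[simp] theorem qval_qmul (r s : Q) : qval (qmul r s) = qval r * qval s := by
  have h1 := qden_pos r
  have h2 := qden_pos s
  simp only [qval, qmul]
  push_cast
  rw [div_mul_div_comm, div_eq_div_iff (by positivity) (by positivity)]
  ring
@[simp] theorem qval_qnat (n : ℕ) : qval (qnat n) = n := by simp [qval, qnat]
@[simp] theorem qval_qfrac (a b : ℕ) : qval (qfrac a b) = (a : ℝ) / ((b : ℝ) + 1) := by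
  simp [qval, qfrac]
@[simp] theorem qval_qinv (r : Q) : qval (qinv r) = (qval r)⁻¹ := by
  have h1 := qden_pos r
  unfold qinv
  split_ifs with h h'
  · have : ((r.1 - r.2.1 - 1 : ℕ) : ℝ) + 1 = (r.1 : ℝ) - r.2.1 := by
      have : r.1 - r.2.1 - 1 + 1 = r.1 - r.2.1 := by omega
      rw [← Nat.cast_sub h.le, ← this]; push_cast; ring
    simp only [qval, this]
    push_cast
    rw [inv_div]; ring
  · have : ((r.2.1 - r.1 - 1 : ℕ) : ℝ) + 1 = (r.2.1 : ℝ) - r.1 := by
      have : r.2.1 - r.1 - 1 + 1 = r.2.1 - r.1 := by omega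
      rw [← Nat.cast_sub h'.le, ← this]; push_cast; ring
    simp only [qval, this]
    push_cast
    rw [inv_div, ← neg_sub (r.2.1 : ℝ) r.1, div_neg]; ring
  · have : r.1 = r.2.1 := by omega
    simp [qval, this]
@[simp] theorem qval_qdiv (r s : Q) : qval (qdiv r s) = qval r / qval s := by
  simp [qdiv, div_eq_mul_inv]
@[simp] theorem qval_qpow (r : Q) (k : ℕ) : qval (qpow r k) = qval r ^ k := by
  induction k with
  | zero => simp [qpow, qval]
  | succ k ih =>
    have : qpow r (k + 1) = qmul r (qpow r k) := by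
      simp [qpow, Function.iterate_succ_apply']
    rw [this, qval_qmul, ih]; ring
theorem qle_iff (r s : Q) : qleL r s ≤ qleR r s ↔ qval r ≤ qval s := by
  have h1 := qden_pos r
  have h2 := qden_pos s
  simp only [qval, qleL, qleR]
  rw [div_le_div_iff₀ h1 h2, ← @Nat.cast_le ℝ]
  push_cast
  constructor <;> intro h <;> nlinarith
theorem qlt_iff (r s : Q) : qleL r s < qleR r s ↔ qval r < qval s := by
  have h1 := qden_pos r
  have h2 := qden_pos s
  simp only [qval, qleL, qleR]
  rw [div_lt_div_iff₀ h1 h2, ← @Nat.cast_lt ℝ]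
  push_cast
  constructor <;> intro h <;> nlinarith
@[simp] theorem qval_qsum (l : List Q) : qval (qsum l) = (l.map qval).sum := by
  induction l with
  | nil => simp [qsum, qval]
  | cons a l ih =>
    have : qsum (a :: l) = qadd a (qsum l) := rfl
    rw [this, qval_qadd, ih]; simp
theorem abs_qval_le (r : Q) : |qval r| ≤ qbd r := by
  have h1 := qden_pos r
  simp only [qval, qbd]
  rw [abs_div, abs_of_pos h1, div_le_iff₀ h1]
  push_cast
  have h3 : |(r.1 : ℝ) - r.2.1| ≤ (r.1 : ℝ) + r.2.1 := by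
    rw [abs_le]; constructor <;> linarith [Nat.cast_nonneg (α := ℝ) r.1, Nat.cast_nonneg (α := ℝ) r.2.1]
  have h4 : (0 : ℝ) ≤ (r.1 : ℝ) + r.2.1 := by positivity
  have h5 : (0 : ℝ) ≤ (r.2.2 : ℝ) := by positivity
  nlinarith
@[simp] theorem qval_qmax (r s : Q) : qval (qmax r s) = max (qval r) (qval s) := by
  unfold qmax
  split_ifs with h
  · rw [max_eq_right ((qle_iff r s).1 h)]
  · rw [max_eq_left]; rw [qle_iff] at h; exact (not_le.1 h).le
@[simp] theorem qval_qmin (r s : Q) : qval (qmin r s) = min (qval r) (qval s) := by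
  unfold qmin
  split_ifs with h
  · rw [min_eq_left ((qle_iff r s).1 h)]
  · rw [min_eq_right]; rw [qle_iff] at h; exact (not_le.1 h).le
@[simp] theorem qval_qfloor (r : Q) : qval (qfloor r) = (⌊qval r⌋ : ℝ) := by
  have h1 := qden_pos r
  unfold qfloor
  split_ifs with h
  · set m := r.1 - r.2.1 with hm
    set c := r.2.2 with hc
    have e : qval r = (m : ℝ) / ((c : ℝ) + 1) := by
      simp only [qval]; rw [hm, Nat.cast_sub h]
    have hk := Nat.div_add_mod m (c + 1)
    have hk2 := Nat.mod_lt m (Nat.succ_pos c)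
    set k := m / (c + 1) with hkdef
    have hfl : ⌊qval r⌋ = (k : ℤ) := by
      rw [Int.floor_eq_iff, e]
      have hmr : (m : ℝ) = ((c : ℝ) + 1) * k + ((m % (c + 1) : ℕ) : ℝ) := by
        exact_mod_cast hk.symm
      have hlt : ((m % (c + 1) : ℕ) : ℝ) < (c : ℝ) + 1 := by exact_mod_cast hk2
      have hnn : (0 : ℝ) ≤ ((m % (c + 1) : ℕ) : ℝ) := by positivity
      constructor
      · rw [le_div_iff₀ h1]; push_cast; nlinarith
      · rw [div_lt_iff₀ h1]; push_cast; nlinarith
    rw [hfl]; simp [qval]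
  · have h' : r.1 < r.2.1 := by omega
    set m := r.2.1 - r.1 with hm
    set c := r.2.2 with hc
    have e : qval r = - ((m : ℝ) / ((c : ℝ) + 1)) := by
      simp only [qval]; rw [hm, Nat.cast_sub h'.le]; ring
    have hk := Nat.div_add_mod (m + c) (c + 1)
    have hk2 := Nat.mod_lt (m + c) (Nat.succ_pos c)
    set k := (m + c) / (c + 1) with hkdef
    have hfl : ⌊qval r⌋ = - (k : ℤ) := by
      rw [Int.floor_eq_iff, e]
      have hmr : (m : ℝ) + c = ((c : ℝ) + 1) * k + (((m + c) % (c + 1) : ℕ) : ℝ) := by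
        exact_mod_cast hk.symm
      have hlt : (((m + c) % (c + 1) : ℕ) : ℝ) + 1 ≤ (c : ℝ) + 1 := by exact_mod_cast hk2
      have hnn : (0 : ℝ) ≤ (((m + c) % (c + 1) : ℕ) : ℝ) := by positivity
      have hm1 : (1 : ℝ) ≤ m := by
        have : 1 ≤ m := by omega
        exact_mod_cast this
      constructor
      · push_cast; rw [neg_le_neg_iff, div_le_iff₀ h1]; nlinarith
      · push_cast
        have : (k : ℝ) - 1 < (m : ℝ) / ((c : ℝ) + 1) := by
          rw [lt_div_iff₀ h1]; nlinarith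
        linarith
    rw [hfl]; simp [qval]

end Vale.Agent.Lib.P113
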