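import Vale.Agent.Lib.P113.FlowDefs

/-!
The injective two-stack machine `R(M)` simulating a Turing machine `M`:
the tape is kept in two stacks `lam` (cells to the left, nearest first) and `rho` (to the right),
in which inert garbage cells are inserted so that every step is injective.
-/

namespace Vale.Agent.Lib.P113

/-- number of tape symbols -/
def nS (M : Machine) : ℕ := M.1 + 1
/-- number of working states; `nQ M` is also the code of the (normalised) halting state -/
def nQ (M : Machine) : ℕ := M.2.length
/-- table lookup -/
def delta (M : Machine) (q a : ℕ) : ℕ × ℕ × Bool := (M.2.getD q []).getD a (0, 0, false)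
/-- number of cell digits: symbols `0..nS-1`, then garbage cells -/
def nC (M : Machine) : ℕ := nS M + 2 * nQ M * nS M
/-- the garbage cell recording that state `q`, looking in direction `d`, read the symbol `a` -/
def gcode (M : Machine) (q : ℕ) (d : Bool) (a : ℕ) : ℕ := nS M + (2 * q + d.toNat) * nS M + a

/-- configurations of `R(M)`: left stack, state, direction in which the head cell lies
(`true`: it is the first symbol cell of `rho`; `false`: of `lam`), right stack -/
abbrev RCfg : Type := List ℕ × ℕ × Bool × List ℕ

/-- one step of `R(M)` -/
def Rstep (M : Machine) (c : RCfg) : RCfg :=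
  let lam := c.1
  let q := c.2.1
  let d := c.2.2.1
  let rho := c.2.2.2
  let top := if d then rho.headD 0 else lam.headD 0
  let lam1 := if d then lam else lam.tail
  let rho1 := if d then rho.tail else rho
  if top < nS M then
    let e := delta M q top
    if e.2.2 then (e.2.1 :: gcode M q d top :: lam1, min e.1 (nQ M), true, rho1)
    else (lam1, min e.1 (nQ M), false, e.2.1 :: gcode M q d top :: rho1)
  else
    if d then (top :: lam1, q, true, rho1) else (lam1, q, false, top :: rho1)

/-- initial configuration of `R(M)` on input `w` -/
def Rinit (M : Machine) (w : List ℕ) : RCfg := ([], min 0 (nQ M), true, w)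

/-- all cells are cell digits and the state is a working state or the halting state -/
def RInv (M : Machine) (c : RCfg) : Prop :=
  (∀ x ∈ c.1, x < nC M) ∧ c.2.1 ≤ nQ M ∧ ∀ x ∈ c.2.2.2, x < nC M

end Vale.Agent.Lib.P113
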