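import Vale.Agent.Lib.P113.Digits
import Vale.Agent.Lib.P113.RM

/-!
The flow data attached to a Turing machine: ten shears per step of `R(M)`.
-/

namespace Vale.Agent.Lib.P113

/-- number of digits -/
def nD (M : Machine) : ℕ := 2 * nQ M + 2 + 2 * nQ M * nC M + nC M
/-- the base -/
def nB (M : Machine) : ℕ := 4 * nD M
/-- state digit at the beginning of a step -/
def sig (q : ℕ) (d : Bool) : ℕ := 2 * q + d.toNat
/-- state digit after the head cell `c` has been absorbed -/
def tau (M : Machine) (q : ℕ) (d : Bool) (c : ℕ) : ℕ :=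
  2 * nQ M + 2 + (2 * q + d.toNat) * nC M + c

/-- A rule of an update `x ↦ s x + g` of one coordinate: initial digits of the old value,
initial digits of the other coordinate (used when computing), initial digits of the new value,
initial digits of the other coordinate (used when uncomputing), slope, constant. -/
abbrev Rule : Type := List ℕ × List ℕ × List ℕ × List ℕ × Q × Q

abbrev Idx : Type := ℕ × Bool × ℕ

def allIdx (n C : ℕ) : List Idx :=
  (List.range n).flatMap fun q => [false, true].flatMap fun d => (List.range C).map fun c => (q, d, c)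

def qone : Q := (1, 0, 0)
def qzero : Q := (0, 0, 0)

def s1Piece (B : ℕ) (r : Rule) : Piece := mkPiece B r.1 r.2.1 r.2.2.2.2.1 r.2.2.2.2.2
def s2Piece (B : ℕ) (r : Rule) : Piece :=
  mkPiece B r.2.2.1 r.2.2.2.1 (qsub qone (qinv r.2.2.2.2.1)) (qdiv r.2.2.2.2.2 r.2.2.2.2.1)

def readRule (M : Machine) (t : Idx) : Rule :=
  if t.2.1 then
    ([sig t.1 true, t.2.2], [], [tau M t.1 true t.2.2], [], qnat (nB M),
      qdiv (qsub (qnat (tau M t.1 true t.2.2))
        (qadd (qmul (qnat (nB M)) (qnat (sig t.1 true))) (qnat t.2.2))) (qnat (nB M)))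
  else
    ([sig t.1 false], [t.2.2], [tau M t.1 false t.2.2], [t.2.2], qone,
      qdiv (qsub (qnat (tau M t.1 false t.2.2)) (qnat (sig t.1 false))) (qnat (nB M)))

/-- `a / B^k` -/
def qdB (M : Machine) (a : Q) (k : ℕ) : Q := qdiv a (qpow (qnat (nB M)) k)

def midCoef (M : Machine) (t : Idx) : Q × Q :=
  if t.2.2 < nS M then
    if (delta M t.1 t.2.2).2.2 then
      if t.2.1 then
        (qdB M qone 2, qadd (qdB M (qnat (gcode M t.1 t.2.1 t.2.2)) 2)
          (qdB M (qnat (delta M t.1 t.2.2).2.1) 1))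
      else
        (qdB M qone 1, qadd (qdB M (qsub (qnat (gcode M t.1 t.2.1 t.2.2)) (qnat t.2.2)) 2)
          (qdB M (qnat (delta M t.1 t.2.2).2.1) 1))
    else
      if t.2.1 then (qone, qzero) else (qnat (nB M), qneg (qnat t.2.2))
  else
    if t.2.1 then (qdB M qone 1, qdB M (qnat t.2.2) 1) else (qnat (nB M), qneg (qnat t.2.2))

def midRule (M : Machine) (t : Idx) : Rule :=
  ([], [tau M t.1 t.2.1 t.2.2], [], [tau M t.1 t.2.1 t.2.2], (midCoef M t).1, (midCoef M t).2)

def writeRule (M : Machine) (t : Idx) : Rule :=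
  if t.2.2 < nS M then
    if (delta M t.1 t.2.2).2.2 then
      ([tau M t.1 t.2.1 t.2.2], [], [sig (min (delta M t.1 t.2.2).1 (nQ M)) true],
        [(delta M t.1 t.2.2).2.1, gcode M t.1 t.2.1 t.2.2], qone,
        qdB M (qsub (qnat (sig (min (delta M t.1 t.2.2).1 (nQ M)) true))
          (qnat (tau M t.1 t.2.1 t.2.2))) 1)
    else
      ([tau M t.1 t.2.1 t.2.2], [], [sig (min (delta M t.1 t.2.2).1 (nQ M)) false,
        (delta M t.1 t.2.2).2.1, gcode M t.1 t.2.1 t.2.2], [], qdB M qone 2,
        qadd (qdB M (qnat (sig (min (delta M t.1 t.2.2).1 (nQ M)) false)) 1)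
          (qadd (qdB M (qnat (delta M t.1 t.2.2).2.1) 2)
            (qdB M (qsub (qnat (gcode M t.1 t.2.1 t.2.2)) (qnat (tau M t.1 t.2.1 t.2.2))) 3)))
  else
    if t.2.1 then
      ([tau M t.1 t.2.1 t.2.2], [], [sig t.1 true], [t.2.2], qone,
        qdB M (qsub (qnat (sig t.1 true)) (qnat (tau M t.1 t.2.1 t.2.2))) 1)
    else
      ([tau M t.1 t.2.1 t.2.2], [], [sig t.1 false, t.2.2], [], qdB M qone 1,
        qadd (qdB M (qnat (sig t.1 false)) 1)
          (qdB M (qsub (qnat t.2.2) (qnat (tau M t.1 t.2.1 t.2.2))) 2))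

def clearPieces : List Piece := [(1, 0, 1, 0, qneg qone, qzero)]

def haltPieces (M : Machine) : List Piece :=
  [mkPiece (nB M) [sig (nQ M) false] [] qzero (5, 0, 7),
   mkPiece (nB M) [sig (nQ M) true] [] qzero (5, 0, 7)]

def idxM (M : Machine) : List Idx := allIdx (nQ M) (nC M)

/-- the ten shears of one step -/
def shears (M : Machine) : List Shear :=
  [(0, haltPieces M),
   (0, (idxM M).map fun t => s1Piece (nB M) (readRule M t)),
   (1, (idxM M).map fun t => s2Piece (nB M) (readRule M t)),
   (0, clearPieces),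
   (2, (idxM M).map fun t => s1Piece (nB M) (midRule M t)),
   (3, (idxM M).map fun t => s2Piece (nB M) (midRule M t)),
   (2, clearPieces),
   (0, (idxM M).map fun t => s1Piece (nB M) (writeRule M t)),
   (1, (idxM M).map fun t => s2Piece (nB M) (writeRule M t)),
   (0, clearPieces)]

/-- value of a stack, as an exact rational -/
def qsval (B : ℕ) (l : List ℕ) : Q := l.foldr (fun d a => qdiv (qadd (qnat d) a) (qnat B)) qzero

/-- the flow data of the pair (M, w) -/
def flowData (M : Machine) (w : List ℕ) : FlowData :=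
  ((qzero, qsval (nB M) (sig (Rinit M w).2.1 true :: w), qzero), shears M)

/-- the point encoding a configuration of `R(M)` -/
noncomputable def enc (M : Machine) (c : RCfg) : R3 :=
  ![sval (nB M) c.1, sval (nB M) (sig c.2.1 c.2.2.1 :: c.2.2.2), 0]

end Vale.Agent.Lib.P113
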